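import Vale.Agent.P281.H603.TE.Cmp

/-!
# P281, project T-E (helper603), block E3: the local data, with the same form of the periods of the
coverings over `Y ∖ S`
-/

open Set Filter Metric MeasureTheory Vale.Agent.P281 Vale.Agent.P281.H713 Vale.Agent.P272.K
open scoped Topology ContDiff Manifold ComplexConjugate

set_option linter.unusedSectionVars false

noncomputable section

namespace Vale.Agent.P281.H603.TE

open Vale.Agent.P281.H64 (Mark Qf Qf_eq bil_eq linV linV_apply)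
open Vale.Agent.P281.H64.TK Vale.Agent.P281.H603.K Vale.Agent.P281.H864.K

attribute [local instance] ccs

section
variable {p d : ℕ} {E Γ : Type} [TopologicalSpace E] [Group Γ] [MulAction Γ E]
  [ContinuousConstSMul Γ E]

/-- the metric of the covering of the manifold number `t` -/
abbrev fW {𝓕 : Fam p d E Γ} (K : Subgroup Γ) [K.FiniteIndex]
    (W : Fin 𝓕.N → Cm p × Cm d → Matrix (Fin p ⊕ Fin d) (Fin p ⊕ Fin d) ℂ) (t : Cm p)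
    (i : Fin (fsub 𝓕 K).N) : Cm d → Matrix (Fin d) (Fin d) ℂ :=
  fibW W t (idx K 𝓕.N i).1

theorem kah_fW {𝓕 : Fam p d E Γ} (K : Subgroup Γ) [K.FiniteIndex]
    {W : Fin 𝓕.N → Cm p × Cm d → Matrix (Fin p ⊕ Fin d) (Fin p ⊕ Fin d) ℂ} (hW : KFam 𝓕 W)
    {t : Cm p} (ht : t ∈ 𝓕.T) : Kah (sub (𝓕.at t ht) K) (fW K W t) :=
  kah_sub (𝓕.at t ht) K (kah_fib hW ht)

/-- the form does not depend on the point of the family -/
theorem form_move [T2Space E] [SimplyConnectedSpace E] (I : Inputs) (hd : 0 < d)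
    {𝓕 : Fam p d E Γ} {K : Subgroup Γ} [K.FiniteIndex]
    {W : Fin 𝓕.N → Cm p × Cm d → Matrix (Fin p ⊕ Fin d) (Fin p ⊕ Fin d) ℂ} (hW : KFam 𝓕 W) {n : ℕ}
    {M : Mark K n} {B : Matrix (Fin n) (Fin n) ℝ} {t s : Cm p} {ht : t ∈ 𝓕.T} (hs : s ∈ 𝓕.T)
    (h : HasForm (sub (𝓕.at t ht) K) (fW K W t) M B) :
    HasForm (sub (𝓕.at s hs) K) (fW K W s) M B := by
  obtain ⟨B', hB'⟩ := I.flat p d E K (fsub 𝓕 K) _ hd (kfam_sub 𝓕 K hW) n M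
  have h1 : B = B' := h.unique (I.c2 d E K (sub (𝓕.at t ht) K) _ hd (kah_fW K hW ht)).1 (hB' t ht)
  rw [h1]
  exact hB' s hs

end

section
variable {p d : ℕ} {Z Y : Type} [TopologicalSpace Z] [T2Space Z] [ChartedSpace (Cm (p + d)) Z]
  [IsManifold 𝓘(ℂ, Cm (p + d)) ω Z] [TopologicalSpace Y] [T2Space Y] [ChartedSpace (Cm p) Y]
  [IsManifold 𝓘(ℂ, Cm p) ω Y]

/-- Local data over an open set of `Y`. -/
structure LocE (f : Z → Y)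
    (w : Chart (p + d) Z → Cm (p + d) → Matrix (Fin (p + d)) (Fin (p + d)) ℂ) (m : ℕ) {n : ℕ}
    (B : Matrix (Fin n) (Fin n) ℝ) where
  E : Type
  Γ : Type
  [tE : TopologicalSpace E]
  [t2 : T2Space E]
  [sc : SimplyConnectedSpace E]
  [gr : Group Γ]
  [act : MulAction Γ E]
  [ct : ContinuousConstSMul Γ E]
  [fin : (core Γ m).FiniteIndex]
  𝓕 : Fam p d E Γ
  q : Cm p → E → Z
  χ : OpenPartialHomeomorph Y (Cm p)
  model : Model (n := p + d) f 𝓕 χ q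
  W : Fin 𝓕.N → Cm p × Cm d → Matrix (Fin p ⊕ Fin d) (Fin p ⊕ Fin d) ℂ
  pull : IsPull w 𝓕 q W
  kfam : KFam 𝓕 W
  M : Mark (core Γ m) n
  form : ∀ t (ht : t ∈ 𝓕.T), HasForm (sub (𝓕.at t ht) (core Γ m)) (fW (core Γ m) W t) M B

attribute [instance] LocE.tE LocE.t2 LocE.sc LocE.gr LocE.act LocE.ct LocE.fin

/-- comparison of two models at the same point, for the coverings -/
theorem compareE (I : Inputs) (hd : 0 < d) {f : Z → Y}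
    (hf : ContMDiff 𝓘(ℂ, Cm (p + d)) 𝓘(ℂ, Cm p) ω f)
    {w : Chart (p + d) Z → Cm (p + d) → Matrix (Fin (p + d)) (Fin (p + d)) ℂ} (hw : IsKahler w)
    {E Γ : Type} [TopologicalSpace E] [T2Space E] [SimplyConnectedSpace E]
    [Group Γ] [MulAction Γ E] [ContinuousConstSMul Γ E] {𝓕 : Fam p d E Γ}
    {q : Cm p → E → Z} {χ : OpenPartialHomeomorph Y (Cm p)}
    {E' Γ' : Type} [TopologicalSpace E'] [T2Space E'] [SimplyConnectedSpace E']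
    [Group Γ'] [MulAction Γ' E'] [ContinuousConstSMul Γ' E'] {𝓕' : Fam p d E' Γ'}
    {q' : Cm p → E' → Z} {χ' : OpenPartialHomeomorph Y (Cm p)}
    (hM : Model (n := p + d) f 𝓕 χ q) (hM' : Model (n := p + d) f 𝓕' χ' q')
    {W : Fin 𝓕.N → Cm p × Cm d → Matrix (Fin p ⊕ Fin d) (Fin p ⊕ Fin d) ℂ}
    {W' : Fin 𝓕'.N → Cm p × Cm d → Matrix (Fin p ⊕ Fin d) (Fin p ⊕ Fin d) ℂ}
    (hW : IsPull w 𝓕 q W) (hW' : IsPull w 𝓕' q' W')
    {t t' : Cm p} (ht : t ∈ 𝓕.T) (ht' : t' ∈ 𝓕'.T) (hy : χ.symm t = χ'.symm t') (m : ℕ)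
    [(core Γ m).FiniteIndex] [(core Γ' m).FiniteIndex] :
    ∃ (τ : E ≃ₜ E') (ρ : Γ ≃* Γ'), (∀ e, q' t' (τ e) = q t e) ∧
      Cmp (𝓕.at t ht) (fibW W t) (𝓕'.at t' ht') (fibW W' t') τ ρ ∧
      Cmp (sub (𝓕.at t ht) (core Γ m)) (fW (core Γ m) W t)
        (sub (𝓕'.at t' ht') (core Γ' m)) (fW (core Γ' m) W' t') τ
          (res ρ fun _ => map_core ρ m) := by
  obtain ⟨τ, ρ, hτ, hq, hc, hm⟩ := compareK I hd hf hw hM hM' hW hW' ht ht' hy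
  have h1 : Cmp (𝓕.at t ht) (fibW W t) (𝓕'.at t' ht') (fibW W' t') τ ρ := ⟨hτ, hc, hm⟩
  exact ⟨τ, ρ, hq, h1, h1.sub (K := core Γ m) (K' := core Γ' m) fun _ => map_core ρ m⟩

/-- some model at `y` has a marking with form `B` -/
def PPE (f : Z → Y) (w : Chart (p + d) Z → Cm (p + d) → Matrix (Fin (p + d)) (Fin (p + d)) ℂ)
    (m : ℕ) {n : ℕ} (B : Matrix (Fin n) (Fin n) ℝ) (y : Y) : Prop :=
  ∃ (E Γ : Type) (_ : TopologicalSpace E) (_ : T2Space E) (_ : SimplyConnectedSpace E)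
    (_ : Group Γ) (_ : MulAction Γ E) (_ : ContinuousConstSMul Γ E)
    (_ : (core Γ m).FiniteIndex) (𝓕 : Fam p d E Γ)
    (q : Cm p → E → Z) (χ : OpenPartialHomeomorph Y (Cm p)) (t : Cm p) (ht : t ∈ 𝓕.T)
    (W : Fin 𝓕.N → Cm p × Cm d → Matrix (Fin p ⊕ Fin d) (Fin p ⊕ Fin d) ℂ)
    (M : Mark (core Γ m) n), Model (n := p + d) f 𝓕 χ q ∧ χ.symm t = y ∧ IsPull w 𝓕 q W ∧
      KFam 𝓕 W ∧ HasForm (sub (𝓕.at t ht) (core Γ m)) (fW (core Γ m) W t) M B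

/-- then all the models at `y` have such a marking -/
theorem PPE.all (I : Inputs) (hd : 0 < d) {f : Z → Y}
    (hf : ContMDiff 𝓘(ℂ, Cm (p + d)) 𝓘(ℂ, Cm p) ω f)
    {w : Chart (p + d) Z → Cm (p + d) → Matrix (Fin (p + d)) (Fin (p + d)) ℂ} (hw : IsKahler w)
    {m n : ℕ} {B : Matrix (Fin n) (Fin n) ℝ} {y : Y}
    (h : PPE (p := p) (d := d) f w m B y)
    {E' Γ' : Type} [TopologicalSpace E'] [T2Space E'] [SimplyConnectedSpace E']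
    [Group Γ'] [MulAction Γ' E'] [ContinuousConstSMul Γ' E'] [(core Γ' m).FiniteIndex]
    {𝓕' : Fam p d E' Γ'}
    {q' : Cm p → E' → Z} {χ' : OpenPartialHomeomorph Y (Cm p)}
    (M' : Model (n := p + d) f 𝓕' χ' q')
    {W' : Fin 𝓕'.N → Cm p × Cm d → Matrix (Fin p ⊕ Fin d) (Fin p ⊕ Fin d) ℂ}
    (hW' : IsPull w 𝓕' q' W') (hK' : KFam 𝓕' W')
    {t' : Cm p} (ht' : t' ∈ 𝓕'.T) (hy : χ'.symm t' = y) :
    ∃ M₁ : Mark (core Γ' m) n,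
      HasForm (sub (𝓕'.at t' ht') (core Γ' m)) (fW (core Γ' m) W' t') M₁ B := by
  obtain ⟨E, Γ, _, _, _, _, _, _, _, 𝓕, q, χ, t, ht, W, M, hM, hy', hW, hK, hT⟩ := h
  obtain ⟨τ, ρ, hq, hc, hcs⟩ := compareE I hd hf hw hM M' hW hW' ht ht' (by rw [hy, hy']) m
  exact ⟨_, hcs.form I hd (kah_fW _ hK ht) (kah_fW _ hK' ht') hT⟩

/-- **the same form everywhere** -/
theorem globE (I : Inputs) (hd : 0 < d) (m : ℕ) {f : Z → Y}
    (hf : ContMDiff 𝓘(ℂ, Cm (p + d)) 𝓘(ℂ, Cm p) ω f)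
    {w : Chart (p + d) Z → Cm (p + d) → Matrix (Fin (p + d)) (Fin (p + d)) ℂ} (hw : IsKahler w)
    {S : Set Y} (hP : H64.IsProperFibration (n := p + d) (p := p) f S) (hconn : IsPreconnected Sᶜ)
    {y₁ : Y} (hy₁ : y₁ ∉ S) :
    ∃ (n : ℕ) (B : Matrix (Fin n) (Fin n) ℝ),
      ∀ y₀ ∉ S, ∃ L : LocE (p := p) (d := d) f w m B,
      y₀ ∈ L.χ.source ∧ L.χ y₀ ∈ L.𝓕.T ∧ ∀ t ∈ L.𝓕.T, L.χ.symm t ∉ S := by
  have hAB := I.ab p d Z Y f S hd hf hP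
  have hS := hP.isClosed
  -- the initial point
  obtain ⟨E₁, Γ₁, _, _, _, _, _, _, 𝓕₁, q₁, hM₁, ht₁, -⟩ := hAB y₁ hy₁
  obtain ⟨W₁, hW₁, hK₁⟩ := I.w p d Z Y f w E₁ Γ₁ 𝓕₁ q₁ _ hf hM₁ hw
  have hfin₁ : (core Γ₁ m).FiniteIndex := coreS d m E₁ Γ₁ (𝓕₁.at _ ht₁) hd
  obtain ⟨n, ⟨M₁⟩⟩ := I.f1 d E₁ (core Γ₁ m) (sub (𝓕₁.at _ ht₁) (core Γ₁ m)) hd
  obtain ⟨B, hB⟩ := I.flat p d E₁ (core Γ₁ m) (fsub 𝓕₁ (core Γ₁ m)) _ hd
    (kfam_sub 𝓕₁ (core Γ₁ m) hK₁) n M₁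
  have hP₁ : PPE (p := p) (d := d) f w m B y₁ := ⟨E₁, Γ₁, inferInstance, inferInstance,
    inferInstance, inferInstance, inferInstance, inferInstance, hfin₁, 𝓕₁, q₁, _, _, ht₁, W₁, M₁,
    hM₁, (chartAt (Cm p) y₁).left_inv (mem_chart_source _ _), hW₁, hK₁, hB _ ht₁⟩
  -- the key property
  have key : ∀ y₀ ∉ S, ∃ U ∈ 𝓝 y₀, ∀ y ∈ U, ∀ y' ∈ U, PPE (p := p) (d := d) f w m B y →
      PPE (p := p) (d := d) f w m B y' := by
    intro y₀ hy₀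
    obtain ⟨E, Γ, _, _, _, _, _, _, 𝓕, q, hM, ht, -⟩ := hAB y₀ hy₀
    obtain ⟨W, hW, hK⟩ := I.w p d Z Y f w E Γ 𝓕 q _ hf hM hw
    have hfin : (core Γ m).FiniteIndex := coreS d m E Γ (𝓕.at _ ht) hd
    set χ := chartAt (Cm p) y₀ with hχ
    have hU : χ.source ∩ χ ⁻¹' 𝓕.T ∈ 𝓝 y₀ :=
      (χ.isOpen_inter_preimage 𝓕.isOpen).mem_nhds ⟨mem_chart_source _ _, ht⟩
    refine ⟨_, hU, fun y hy y' hy' h => ?_⟩
    obtain ⟨M, hMf⟩ := h.all I hd hf hw hM hW hK hy.2 (χ.left_inv hy.1)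
    exact ⟨E, Γ, inferInstance, inferInstance, inferInstance, inferInstance, inferInstance,
      inferInstance, hfin, 𝓕, q, χ, χ y', hy'.2, W, M, hM, χ.left_inv hy'.1, hW, hK,
      form_move I hd hK hy'.2 hMf⟩
  have hall : ∀ y ∉ S, PPE (p := p) (d := d) f w m B y := by
    -- two open sets
    set A : Set Y := {y | y ∉ S ∧ PPE (p := p) (d := d) f w m B y} with hA
    set A' : Set Y := {y | y ∉ S ∧ ¬ PPE (p := p) (d := d) f w m B y} with hA'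
    have hSo : IsOpen Sᶜ := hS.isOpen_compl
    have hAo : IsOpen A := by
      rw [isOpen_iff_mem_nhds]
      rintro y ⟨hy, hP⟩
      obtain ⟨U, hU, hUP⟩ := key y hy
      filter_upwards [hU, hSo.mem_nhds hy] with y' a b
      exact ⟨b, hUP y (mem_of_mem_nhds hU) y' a hP⟩
    have hAo' : IsOpen A' := by
      rw [isOpen_iff_mem_nhds]
      rintro y ⟨hy, hP⟩
      obtain ⟨U, hU, hUP⟩ := key y hy
      filter_upwards [hU, hSo.mem_nhds hy] with y' a b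
      exact ⟨b, fun h => hP (hUP y' a y (mem_of_mem_nhds hU) h)⟩
    intro y hy
    by_contra hcon
    obtain ⟨x, -, hx1, hx2⟩ := hconn A A' hAo hAo' (fun x hx => by
      by_cases h : PPE (p := p) (d := d) f w m B x
      · exact Or.inl ⟨hx, h⟩
      · exact Or.inr ⟨hx, h⟩) ⟨y₁, hy₁, hy₁, hP₁⟩ ⟨y, hy, hy, hcon⟩
    exact hx2.2 hx1.2
  refine ⟨n, B, fun y₀ hy₀ => ?_⟩
  obtain ⟨E, Γ, _, _, _, _, _, _, 𝓕, q, hM, ht, hT⟩ := hAB y₀ hy₀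
  obtain ⟨W, hW, hK⟩ := I.w p d Z Y f w E Γ 𝓕 q _ hf hM hw
  have hfin : (core Γ m).FiniteIndex := coreS d m E Γ (𝓕.at _ ht) hd
  obtain ⟨M, hMf⟩ := (hall y₀ hy₀).all I hd hf hw hM hW hK ht
    ((chartAt (Cm p) y₀).left_inv (mem_chart_source _ _))
  exact ⟨{
    E := E
    Γ := Γ
    fin := hfin
    𝓕 := 𝓕
    q := q
    χ := chartAt (Cm p) y₀
    model := hM
    W := W
    pull := hW
    kfam := hK
    M := M
    form := fun t ht' => form_move I hd hK ht' hMf }, mem_chart_source _ _, ht, hT⟩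

/-- Local data, with a holomorphic basis `F t` of the additive functions, with periods `c t`. -/
structure DLocE (f : Z → Y)
    (w : Chart (p + d) Z → Cm (p + d) → Matrix (Fin (p + d)) (Fin (p + d)) ℂ) (m : ℕ) {n : ℕ}
    (B : Matrix (Fin n) (Fin n) ℝ) (g : ℕ) extends LocE (p := p) (d := d) f w m B where
  T' : Set (Cm p)
  hT' : T' ⊆ 𝓕.T
  isOpen' : IsOpen T'
  F : Cm p → E → Fin g → ℂ
  c : Cm p → core Γ m → Fin g → ℂ
  bas : ∀ (t : Cm p) (ht : t ∈ T'), IsBas (sub (𝓕.at t (hT' ht)) (core Γ m)) (F t) (c t)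
  holF : ∀ i, ∀ t ∈ T', ∀ z ∈ ball (0 : Cm d) 3, ∀ j,
    AnalyticAt ℂ (fun q : Cm p × Cm d => F q.1 ((fsub 𝓕 (core Γ m)).σ i q.1 q.2) j) (t, z)
  holc : ∀ γ j, ∀ t ∈ T', AnalyticAt ℂ (fun s => c s γ j) t

/-- `globE`, with holomorphic bases -/
theorem dglobE (I : Inputs) (hd : 0 < d) (m : ℕ) {f : Z → Y}
    (hf : ContMDiff 𝓘(ℂ, Cm (p + d)) 𝓘(ℂ, Cm p) ω f)
    {w : Chart (p + d) Z → Cm (p + d) → Matrix (Fin (p + d)) (Fin (p + d)) ℂ} (hw : IsKahler w)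
    {S : Set Y} (hP : H64.IsProperFibration (n := p + d) (p := p) f S) (hconn : IsPreconnected Sᶜ)
    {y₁ : Y} (hy₁ : y₁ ∉ S) :
    ∃ (n g : ℕ) (_ : n = 2 * g) (B : Matrix (Fin n) (Fin n) ℝ),
      ∀ y₀ ∉ S, ∃ L : DLocE (p := p) (d := d) f w m B g,
      y₀ ∈ L.χ.source ∧ L.χ y₀ ∈ L.T' ∧ ∀ t ∈ L.T', L.χ.symm t ∉ S := by
  obtain ⟨n, B, h⟩ := globE I hd m hf hw hP hconn hy₁
  obtain ⟨L₁, -, hL₁, -⟩ := h y₁ hy₁
  obtain ⟨g, -, -, -, -, hn, -⟩ := I.d p d L₁.E (core L₁.Γ m) (fsub L₁.𝓕 (core L₁.Γ m)) _ hd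
    (kfam_sub L₁.𝓕 (core L₁.Γ m) L₁.kfam) n L₁.M _ hL₁
  refine ⟨n, g, hn, B, fun y₀ hy₀ => ?_⟩
  obtain ⟨L, hs, hT, hSS⟩ := h y₀ hy₀
  obtain ⟨g', T', hT', F, c, hn', ho, ht, hb, hF, hc⟩ :=
    I.d p d L.E (core L.Γ m) (fsub L.𝓕 (core L.Γ m)) _ hd
      (kfam_sub L.𝓕 (core L.Γ m) L.kfam) n L.M _ hT
  obtain rfl : g' = g := by omega
  exact ⟨{ toLocE := L, T' := T', hT' := hT', isOpen' := ho, F := F, c := c, bas := hb,
           holF := hF, holc := hc }, hs, ht, fun t ht' => hSS t (hT' ht')⟩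

end

end Vale.Agent.P281.H603.TE
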