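import Vale.Agent.P281.H603.TE.Core
import Vale.Agent.P281.H64.TU.Alb

/-!
# P281, project T-E (helper603), block E3: comparison of two surfaces and of their coverings
-/

open Set Filter Metric MeasureTheory Vale.Agent.P281 Vale.Agent.P281.H713 Vale.Agent.P272.K
open scoped Topology ContDiff Manifold ComplexConjugate

set_option linter.unusedSectionVars false

noncomputable section

namespace Vale.Agent.P281.H603.TE

open Vale.Agent.P281.H64 (Mark Qf Qf_eq bil_eq linV linV_apply)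
open Vale.Agent.P281.H64.TK Vale.Agent.P281.H603.K Vale.Agent.P281.H864.K

theorem ccs {E Γ : Type} [TopologicalSpace E] [Group Γ] [MulAction Γ E]
    [ContinuousConstSMul Γ E] (K : Subgroup Γ) : ContinuousConstSMul K E :=
  ⟨fun κ => continuous_const_smul (κ : Γ)⟩

section
variable {d : ℕ} {E Γ E' Γ' : Type} [TopologicalSpace E] [Group Γ] [MulAction Γ E]
  [TopologicalSpace E'] [Group Γ'] [MulAction Γ' E']

/-- An isomorphism of `S` with `S'`, preserving the metrics. -/
structure Cmp (S : Sheets d E Γ) (w : Fin S.N → Cm d → Matrix (Fin d) (Fin d) ℂ)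
    (S' : Sheets d E' Γ') (w' : Fin S'.N → Cm d → Matrix (Fin d) (Fin d) ℂ) (τ : E ≃ₜ E')
    (ρ : Γ ≃* Γ') : Prop where
  eqv : ∀ γ e, τ (γ • e) = ρ γ • τ e
  hol : HolCompat S (S'.pull τ ρ eqv)
  met : SameMetric S (S'.pull τ ρ eqv) w w'

variable {S : Sheets d E Γ} {w : Fin S.N → Cm d → Matrix (Fin d) (Fin d) ℂ}
  {S' : Sheets d E' Γ'} {w' : Fin S'.N → Cm d → Matrix (Fin d) (Fin d) ℂ} {τ : E ≃ₜ E'}
  {ρ : Γ ≃* Γ'}

theorem Cmp.symm_smul (h : Cmp S w S' w' τ ρ) (γ : Γ') (e : E') :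
    τ.symm (γ • e) = ρ.symm γ • τ.symm e := by
  apply τ.injective
  rw [h.eqv, τ.apply_symm_apply, ρ.apply_symm_apply, τ.apply_symm_apply]

/-- composition with `δ ∈ Γ'` -/
theorem Cmp.smul [ContinuousConstSMul Γ' E'] (h : Cmp S w S' w' τ ρ) (δ : Γ') :
    Cmp S w S' w' (τ.trans (Homeomorph.smul δ)) (ρ.trans (MulAut.conj δ)) where
  eqv γ e := by
    show δ • τ (γ • e) = (δ * ρ γ * δ⁻¹) • δ • τ e
    rw [h.eqv, mul_smul, mul_smul, inv_smul_smul]
  hol i j z hz v hv γ he := by
    have key : ∀ e : E', γ • (τ.trans (Homeomorph.smul δ)).symm e =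
        (γ * ρ.symm δ⁻¹) • τ.symm e := by
      intro e
      show γ • τ.symm (δ⁻¹ • e) = _
      rw [h.symm_smul, mul_smul]
    have he' : S.σ i z = (γ * ρ.symm δ⁻¹) • τ.symm (S'.σ j v) := by
      rw [← key]
      exact he
    obtain ⟨θ, h1, h2, h3, h4⟩ := h.hol i j z hz v hv (γ * ρ.symm δ⁻¹) he'
    refine ⟨θ, h1, h2, h3, ?_⟩
    filter_upwards [h4] with u hu
    have hu' : S.σ i u = (γ * ρ.symm δ⁻¹) • τ.symm (S'.σ j (θ u)) := hu
    rw [← key] at hu'
    exact hu'
  met i j z hz v hv γ θ h1 h2 h3 := by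
    have key : ∀ e : E', γ • (τ.trans (Homeomorph.smul δ)).symm e =
        (γ * ρ.symm δ⁻¹) • τ.symm e := by
      intro e
      show γ • τ.symm (δ⁻¹ • e) = _
      rw [h.symm_smul, mul_smul]
    refine h.met i j z hz v hv (γ * ρ.symm δ⁻¹) θ h1 h2 ?_
    filter_upwards [h3] with u hu
    have hu' : S.σ i u = γ • (τ.trans (Homeomorph.smul δ)).symm (S'.σ j (θ u)) := hu
    rw [key] at hu'
    exact hu'

section res
variable {K : Subgroup Γ} {K' : Subgroup Γ'}

/-- the restriction of `ρ` to the subgroups -/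
def res (ρ : Γ ≃* Γ') (hK : ∀ γ, ρ γ ∈ K' ↔ γ ∈ K) : K ≃* K' where
  toFun κ := ⟨ρ κ, (hK κ).2 κ.2⟩
  invFun κ := ⟨ρ.symm κ, (hK _).1 (by rw [ρ.apply_symm_apply]; exact κ.2)⟩
  left_inv κ := Subtype.ext (ρ.symm_apply_apply _)
  right_inv κ := Subtype.ext (ρ.apply_symm_apply _)
  map_mul' κ κ' := Subtype.ext (ρ.map_mul _ _)

variable [K.FiniteIndex] [K'.FiniteIndex] [ContinuousConstSMul Γ E] [ContinuousConstSMul Γ' E']

/-- the coverings -/
theorem Cmp.sub (h : Cmp S w S' w' τ ρ) (hK : ∀ γ, ρ γ ∈ K' ↔ γ ∈ K) :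
    Cmp (sub S K) (fun i => w (idx K S.N i).1) (TE.sub S' K') (fun i => w' (idx K' S'.N i).1) τ
      (res ρ hK) where
  eqv κ e := h.eqv κ e
  hol i j z hz v hv κ he := by
    have key : ∀ e : E', (κ : Γ) • τ.symm (rep K' (idx K' S'.N j).2 • e) =
        ((κ : Γ) * ρ.symm (rep K' (idx K' S'.N j).2)) • τ.symm e := by
      intro e
      rw [h.symm_smul, mul_smul]
    have he' : rep K (idx K S.N i).2 • S.σ (idx K S.N i).1 z =
        (κ : Γ) • τ.symm (rep K' (idx K' S'.N j).2 • S'.σ (idx K' S'.N j).1 v) := he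
    rw [key] at he'
    have he2 : S.σ (idx K S.N i).1 z = ((rep K (idx K S.N i).2)⁻¹ *
        ((κ : Γ) * ρ.symm (rep K' (idx K' S'.N j).2))) •
          τ.symm (S'.σ (idx K' S'.N j).1 v) := by
      rw [mul_smul, ← he', inv_smul_smul]
    obtain ⟨θ, h1, h2, h3, h4⟩ := h.hol _ _ z hz v hv _ he2
    refine ⟨θ, h1, h2, h3, ?_⟩
    filter_upwards [h4] with u hu
    have hu' : S.σ (idx K S.N i).1 u = ((rep K (idx K S.N i).2)⁻¹ *
        ((κ : Γ) * ρ.symm (rep K' (idx K' S'.N j).2))) •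
          τ.symm (S'.σ (idx K' S'.N j).1 (θ u)) := hu
    show rep K (idx K S.N i).2 • S.σ (idx K S.N i).1 u =
      (κ : Γ) • τ.symm (rep K' (idx K' S'.N j).2 • S'.σ (idx K' S'.N j).1 (θ u))
    rw [key, hu', mul_smul, smul_inv_smul]
  met i j z hz v hv κ θ h1 h2 h3 := by
    have key : ∀ e : E', (κ : Γ) • τ.symm (rep K' (idx K' S'.N j).2 • e) =
        ((κ : Γ) * ρ.symm (rep K' (idx K' S'.N j).2)) • τ.symm e := by
      intro e
      rw [h.symm_smul, mul_smul]
    refine h.met _ _ z hz v hv ((rep K (idx K S.N i).2)⁻¹ *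
        ((κ : Γ) * ρ.symm (rep K' (idx K' S'.N j).2))) θ h1 h2 ?_
    filter_upwards [h3] with u hu
    have he' : rep K (idx K S.N i).2 • S.σ (idx K S.N i).1 u =
        (κ : Γ) • τ.symm (rep K' (idx K' S'.N j).2 • S'.σ (idx K' S'.N j).1 (θ u)) := hu
    rw [key] at he'
    show S.σ (idx K S.N i).1 u = ((rep K (idx K S.N i).2)⁻¹ *
        ((κ : Γ) * ρ.symm (rep K' (idx K' S'.N j).2))) •
          τ.symm (S'.σ (idx K' S'.N j).1 (θ u))
    rw [mul_smul, ← he', inv_smul_smul]

end res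

end

/-! ### The change of the periods -/

section change
variable {d : ℕ} {E Γ E' Γ' : Type} [TopologicalSpace E] [T2Space E] [SimplyConnectedSpace E]
  [Group Γ] [MulAction Γ E] [ContinuousConstSMul Γ E]
  [TopologicalSpace E'] [T2Space E'] [SimplyConnectedSpace E']
  [Group Γ'] [MulAction Γ' E'] [ContinuousConstSMul Γ' E']
  {S : Sheets d E Γ} {w : Fin S.N → Cm d → Matrix (Fin d) (Fin d) ℂ}
  {S' : Sheets d E' Γ'} {w' : Fin S'.N → Cm d → Matrix (Fin d) (Fin d) ℂ} {τ : E ≃ₜ E'}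
  {ρ : Γ ≃* Γ'} {n g : ℕ} {M : Mark Γ n} {M' : Mark Γ' n} {B : Matrix (Fin n) (Fin n) ℝ}
  {F : E → Fin g → ℂ} {c : Γ → Fin g → ℂ} {F' : E' → Fin g → ℂ} {c' : Γ' → Fin g → ℂ}

/-- transport of the form -/
theorem Cmp.form (h : Cmp S w S' w' τ ρ) (I : Inputs) (hd : 0 < d) (hK : Kah S w)
    (hK' : Kah S' w') (hB : HasForm S w M B) : HasForm S' w' (M.map ρ) B :=
  HasForm.transport (τ := τ) (hτ := h.eqv) (I.e1 d E Γ S w hd hK) (kah_pull hK') h.hol h.met hB

/-- **change** -/
theorem Cmp.change (h : Cmp S w S' w' τ ρ) (I : Inputs) (hd : 0 < d) (hK : Kah S w)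
    (hK' : Kah S' w') (hform : HasForm S w M B) (hform' : HasForm S' w' M' B)
    (hB : IsUnit B.det) (hbas : IsBas S F c) (hbas' : IsBas S' F' c')
    {π π' : (Fin n → ℝ) ≃L[ℝ] EuclideanSpace ℂ (Fin g)} (hπ : ∀ x, π x = perMap M c x)
    (hπ' : ∀ x, π' x = perMap M' c' x) :
    ∃ (G : EuclideanSpace ℂ (Fin g) ≃L[ℂ] EuclideanSpace ℂ (Fin g)) (b : EuclideanSpace ℂ (Fin g)),
      IsPeriodChange (Qf B) π π' G ∧
        ∀ e, (WithLp.toLp 2 (F' (τ e)) : EuclideanSpace ℂ (Fin g)) = G (WithLp.toLp 2 (F e)) + b := by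
  have hC2 := (I.c2 d E Γ S _ hd hK).2
  have hC2' := (I.c2 d E' Γ' S' _ hd hK').2
  have hτ := h.eqv
  have hH := h.hol
  -- the functions of `S'` on `S`
  have hadd : ∀ j, Add S (fun e => F' (τ e) j) (fun γ => c' (ρ γ) j) :=
    fun j => add_compat (holCompat_symm hH) ((hbas'.add j).pull (hτ := hτ))
  obtain ⟨A, b, hA, hAF⟩ := exists_linV hbas hC2 hadd
  -- the functions of `S` on `S'`
  have hadd' : ∀ j, Add S' (fun e => F (τ.symm e) j) (fun γ => c (ρ.symm γ) j) := fun j => by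
    have h1 : Add (S'.pull τ ρ hτ) (fun e => (fun e' => F (τ.symm e') j) (τ e))
        (fun γ => c γ j) := by
      have h2 := add_compat hH (hbas.add j)
      simpa using h2
    exact Add.of_pull (τ := τ) (ρ := ρ) (hτ := hτ) (h := fun e' => F (τ.symm e') j) h1
  obtain ⟨A', b', hA', -⟩ := exists_linV hbas' hC2' hadd'
  -- `G` and its inverse
  have hGper : ∀ γ, linV A (WithLp.toLp 2 (c γ)) = WithLp.toLp 2 (c' (ρ γ)) := fun γ => by
    rw [linV_apply]
    congr 1
    funext j
    exact (hA γ j).symm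
  have hGper' : ∀ γ, linV A' (WithLp.toLp 2 (c' γ)) = WithLp.toLp 2 (c (ρ.symm γ)) := fun γ => by
    rw [linV_apply]
    congr 1
    funext j
    exact (hA' γ j).symm
  have hid : (linV A').comp (linV A) = LinearMap.id := by
    have h1 : (linV A').comp (linV A) = linV fun j k => ∑ i, A' j i * A i k := by
      apply LinearMap.ext
      intro v
      apply (WithLp.equiv 2 (Fin g → ℂ)).injective
      funext j
      show ∑ i, A' j i * ∑ k, A i k * v k = ∑ k, (∑ i, A' j i * A i k) * v k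
      simp only [Finset.mul_sum, Finset.sum_mul]
      rw [Finset.sum_comm]
      exact Finset.sum_congr rfl fun _ _ => Finset.sum_congr rfl fun _ _ => by ring
    rw [h1]
    refine hbas.linV_id fun γ j => ?_
    have h2 := hA' (ρ γ) j
    rw [ρ.symm_apply_apply] at h2
    rw [h2]
    simp only [hA γ, Finset.mul_sum, Finset.sum_mul]
    rw [Finset.sum_comm]
    exact Finset.sum_congr rfl fun _ _ => Finset.sum_congr rfl fun _ _ => by ring
  have hid' : (linV A).comp (linV A') = LinearMap.id := by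
    have h1 : (linV A).comp (linV A') = linV fun j k => ∑ i, A j i * A' i k := by
      apply LinearMap.ext
      intro v
      apply (WithLp.equiv 2 (Fin g → ℂ)).injective
      funext j
      show ∑ i, A j i * ∑ k, A' i k * v k = ∑ k, (∑ i, A j i * A' i k) * v k
      simp only [Finset.mul_sum, Finset.sum_mul]
      rw [Finset.sum_comm]
      exact Finset.sum_congr rfl fun _ _ => Finset.sum_congr rfl fun _ _ => by ring
    rw [h1]
    refine hbas'.linV_id fun γ j => ?_
    have h2 := hA (ρ.symm γ) j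
    rw [ρ.apply_symm_apply] at h2
    rw [h2]
    simp only [hA' γ, Finset.mul_sum, Finset.sum_mul]
    rw [Finset.sum_comm]
    exact Finset.sum_congr rfl fun _ _ => Finset.sum_congr rfl fun _ _ => by ring
  let G : EuclideanSpace ℂ (Fin g) ≃L[ℂ] EuclideanSpace ℂ (Fin g) :=
    (LinearEquiv.ofLinearMap (linV A) (linV A') hid' hid).toContinuousLinearEquiv
  have hG : ∀ v, G v = linV A v := fun v => rfl
  -- integral matrix
  set N : Fin n → Fin n → ℤ := fun l k => M'.φ l (ρ (M.g k)) with hN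
  have hGπ : ∀ x, G (π x) = π' fun l => ∑ k, (N l k : ℝ) * x k := by
    intro x
    have e1 : π x = ∑ k, (x k : ℂ) • (WithLp.toLp 2 (c (M.g k)) :
        EuclideanSpace ℂ (Fin g)) := by
      rw [hπ]
      apply (WithLp.equiv 2 (Fin g → ℂ)).injective
      funext j
      simp [perMap, Finset.sum_apply]
    have e2 : ∀ x' : Fin n → ℝ, π' x' = ∑ l, (x' l : ℂ) •
        (WithLp.toLp 2 (c' (M'.g l)) : EuclideanSpace ℂ (Fin g)) := by
      intro x'
      rw [hπ']
      apply (WithLp.equiv 2 (Fin g → ℂ)).injective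
      funext j
      simp [perMap, Finset.sum_apply]
    rw [e1, hG, map_sum, e2]
    have e3 : ∀ k, (WithLp.toLp 2 (c' (ρ (M.g k))) : EuclideanSpace ℂ (Fin g)) =
        ∑ l, ((N l k : ℝ) : ℂ) • (WithLp.toLp 2 (c' (M'.g l)) :
          EuclideanSpace ℂ (Fin g)) := by
      intro k
      rw [hbas'.per_eq (M := M'), ← hπ', e2]
    simp only [map_smul, hGper, e3, Finset.smul_sum, smul_smul]
    rw [Finset.sum_comm]
    refine Finset.sum_congr rfl fun l _ => ?_
    rw [← Finset.sum_smul]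
    congr 1
    push_cast
    exact Finset.sum_congr rfl fun k _ => by ring
  refine ⟨G, WithLp.toLp 2 b, ⟨fun m => ?_, fun m' => ?_, fun x x' => ?_⟩, fun e => ?_⟩
  · refine ⟨fun l => ∑ k, N l k * m k, ?_⟩
    rw [hGπ]
    congr 1
    funext l
    push_cast
    rfl
  · -- surjectivity
    obtain ⟨γ', hγ'⟩ := M'.surj m'
    refine ⟨fun k => M.φ k (ρ.symm γ'), ?_⟩
    have h1 := hbas.per_eq (M := M) (ρ.symm γ')
    have h2 := hbas'.per_eq (M := M') γ'
    rw [hπ, ← h1, hG, hGper, ρ.apply_symm_apply, h2, ← hπ']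
    congr 1
    funext l
    rw [hγ']
  · -- the polarization
    rw [hGπ, hGπ, ContinuousLinearEquiv.symm_apply_apply, ContinuousLinearEquiv.symm_apply_apply]
    set NR : Matrix (Fin n) (Fin n) ℝ := Matrix.of fun l k => (N l k : ℝ) with hNR
    have hmul : ∀ x : Fin n → ℝ, (fun l => ∑ k, (N l k : ℝ) * x k) = NR.mulVec x := fun x => rfl
    -- `NR * B * NRᵀ = B`
    have hNB : NR * B * NR.transpose = B := by
      have h3 : HasForm S' w' M' (NR * B * NR.transpose) := by
        intro h c h' c' H H'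
        have H1 : Add S (fun e => h (τ e)) (fun γ => c (ρ γ)) :=
          add_compat (holCompat_symm hH) (H.pull (hτ := hτ))
        have H1' : Add S (fun e => h' (τ e)) (fun γ => c' (ρ γ)) :=
          add_compat (holCompat_symm hH) (H'.pull (hτ := hτ))
        have h4 := hform _ _ _ _ H1 H1'
        rw [← (I.e1 d E Γ S _ hd hK).inv _ _ (kah_pull hK') hH ‹Cmp S w S' w' τ ρ›.met H1 H1'] at h4
        have h4' : (S'.herm w' h h').im =
            ∑ k, ∑ l, B k l * (c (ρ (M.g k))).re * (c' (ρ (M.g l))).re :=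
          (congrArg Complex.im (herm_pull (S' := S') (τ := τ) (ρ := ρ) (hτ := hτ)
            w' h h')).symm.trans h4
        rw [h4']
        have h5 : ∀ {u : E' → ℂ} {v : Γ' → ℂ}, Add S' u v → ∀ k,
            (v (ρ (M.g k))).re = ∑ l, (N l k : ℝ) * (v (M'.g l)).re := by
          intro u v huv k
          rw [M'.complex huv.map_mul, Complex.re_sum]
          refine Finset.sum_congr rfl fun l _ => ?_
          simp [hN]
        have h7 : ∀ {u : E' → ℂ} {v : Γ' → ℂ}, Add S' u v →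
            (fun k => (v (ρ (M.g k))).re) = NR.transpose.mulVec fun l => (v (M'.g l)).re := by
          intro u v huv
          funext k
          exact h5 huv k
        rw [bil_eq B (fun k => (c (ρ (M.g k))).re) (fun k => (c' (ρ (M.g k))).re),
          bil_eq (NR * B * NR.transpose) (fun k => (c (M'.g k)).re)
          (fun k => (c' (M'.g k)).re), h7 H, h7 H', ← Matrix.mulVec_mulVec,
          ← Matrix.mulVec_mulVec, Matrix.mulVec_transpose NR (fun k => (c (M'.g k)).re),
          ← Matrix.dotProduct_mulVec]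
      exact h3.unique (I.c2 d E' Γ' S' _ hd hK').1 hform'
    have hdet : IsUnit NR.det := by
      have h6 := congrArg Matrix.det hNB
      rw [Matrix.det_mul, Matrix.det_mul, Matrix.det_transpose] at h6
      rw [isUnit_iff_ne_zero] at hB ⊢
      intro h7
      rw [h7] at h6
      simp at h6
      exact hB h6.symm
    have hNB' : NR.transpose * B⁻¹ * NR = B⁻¹ := by
      have h8 : B⁻¹ = (NR.transpose)⁻¹ * B⁻¹ * NR⁻¹ := by
        conv_lhs => rw [← hNB]
        rw [Matrix.mul_inv_rev, Matrix.mul_inv_rev, Matrix.mul_assoc]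
      conv_lhs => rw [h8]
      rw [← Matrix.mul_assoc, ← Matrix.mul_assoc, Matrix.mul_nonsing_inv _ (by
        rw [Matrix.det_transpose]; exact hdet), Matrix.one_mul, Matrix.mul_assoc,
        Matrix.nonsing_inv_mul _ hdet, Matrix.mul_one]
    rw [hmul, hmul, Qf_eq, Qf_eq]
    conv_rhs => rw [← hNB']
    rw [← Matrix.mulVec_mulVec, ← Matrix.mulVec_mulVec, Matrix.dotProduct_mulVec x' NR.transpose,
      Matrix.vecMul_transpose]
  · -- the functions
    rw [hG]
    apply (WithLp.equiv 2 (Fin g → ℂ)).injective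
    funext j
    exact hAF e j

end change

end Vale.Agent.P281.H603.TE
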