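import Vale.Agent.P281.H603.TE.Lift
import Vale.Agent.P281.H64.TE.Spec
import Vale.Agent.P281.H969.K.FibN

/-!
# P281, project T-E (helper603), block E6: closed 1-forms of a finite étale covering of the fibre
-/

open Set Filter Metric Vale.Agent.P281 Vale.Agent.P272.K
open scoped Topology ContDiff Manifold ComplexConjugate ComplexOrder

set_option linter.unusedSectionVars false

noncomputable section

namespace Vale.Agent.P281.H603.TE

open Vale.Agent.P281.H64.TK Vale.Agent.P281.H603.K Vale.Agent.P281.H125.Fib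
open Vale.Agent.P281.H969.K.FibN
open Vale.Agent.P281.H64.TK.TE (IsSquareE FibEStmt NDegE CoreStmt)

theorem ccs' {E Γ : Type} [TopologicalSpace E] [Group Γ] [MulAction Γ E]
    [ContinuousConstSMul Γ E] (K : Subgroup Γ) : ContinuousConstSMul K E :=
  ⟨fun κ => continuous_const_smul (κ : Γ)⟩

attribute [local instance] ccs'

/-! ### The covering of the fibre -/

section cover
variable {n d : ℕ} {Z F : Type} [TopologicalSpace Z] [ChartedSpace (Cm n) Z]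
  [TopologicalSpace F] [ChartedSpace (Cm d) F] {E Γ : Type} [TopologicalSpace E] [Group Γ]
  [MulAction Γ E] {S : Sheets d E Γ} {Q : E → Z} {i : F → Z}

/-- the coordinate on `F` -/
theorem exists_coord (h : QD n S Q) (ihol : ContMDiff 𝓘(ℂ, Cm d) 𝓘(ℂ, Cm n) ω i)
    (imm : ∀ x, Function.Injective (mfderiv 𝓘(ℂ, Cm d) 𝓘(ℂ, Cm n) i x))
    (isub : range i ⊆ range Q) {x₀ : F} {j : Fin S.N} {z : Cm d}
    (hz : z ∈ ball (0 : Cm d) 3) (hx : i x₀ = Q (S.σ j z)) :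
    ∃ (ζ : Z → Cm d) (G' : Cm d ≃L[ℂ] Cm d),
      ContinuousAt (fun x => ζ (i x)) x₀ ∧ ζ (i x₀) = z ∧
      (∀ᶠ x in 𝓝 (Q (S.σ j z)), x ∈ range Q → Q (S.σ j (ζ x)) = x) ∧
      ContinuousAt ζ (Q (S.σ j z)) ∧
      HasStrictFDerivAt (fun u => ζ (i ((chartAt (Cm d) x₀).symm u))) (G' : Cm d →L[ℂ] Cm d)
        (chartAt (Cm d) x₀ x₀) := by
  obtain ⟨ζ, h1, h2, h3⟩ := h.coord j z hz
  have h1' : ContMDiffAt 𝓘(ℂ, Cm n) 𝓘(ℂ, Cm d) ω ζ (i x₀) := by rw [hx]; exact h1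
  have hg : ContMDiffAt 𝓘(ℂ, Cm d) 𝓘(ℂ, Cm d) ω (fun x => ζ (i x)) x₀ :=
    ContMDiffAt.comp x₀ h1' (ihol x₀)
  have hg0 : ζ (i x₀) = z := by rw [hx, h2]
  have hloc : i =ᶠ[𝓝 x₀] (fun y => Q (S.σ j y)) ∘ fun x => ζ (i x) := by
    have h4 : ∀ᶠ x in 𝓝 (i x₀), x ∈ range Q → Q (S.σ j (ζ x)) = x := by rw [hx]; exact h3
    filter_upwards [(ihol x₀).continuousAt.eventually h4] with x hx'
    exact (hx' (isub ⟨x, rfl⟩)).symm
  have hinj : Function.Injective (mfderiv 𝓘(ℂ, Cm d) 𝓘(ℂ, Cm d) (fun x => ζ (i x)) x₀) := by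
    have hQ : MDifferentiableAt 𝓘(ℂ, Cm d) 𝓘(ℂ, Cm n) (fun y => Q (S.σ j y)) (ζ (i x₀)) := by
      rw [hg0]; exact (h.hol j z hz).mdifferentiableAt (by simp)
    have h5 := ((hQ.hasMFDerivAt.comp x₀
      (hg.mdifferentiableAt (by simp)).hasMFDerivAt).congr_of_eventuallyEq hloc).mfderiv
    have h6 : ∀ ξ : Cm d, (mfderiv 𝓘(ℂ, Cm d) 𝓘(ℂ, Cm n) i x₀ ξ : Cm n) =
        (mfderiv 𝓘(ℂ, Cm d) 𝓘(ℂ, Cm n) (fun y => Q (S.σ j y)) (ζ (i x₀))
          (mfderiv 𝓘(ℂ, Cm d) 𝓘(ℂ, Cm d) (fun x => ζ (i x)) x₀ ξ) : Cm n) := fun ξ =>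
      congrArg (fun L : Cm d →L[ℂ] Cm n => L ξ) h5
    intro ξ ξ' hξ
    refine imm x₀ ?_
    have e1 := h6 ξ
    have e2 := h6 ξ'
    rw [hξ] at e1
    exact e1.trans e2.symm
  rw [mfderiv_eq' (hg.mdifferentiableAt (by simp))] at hinj
  obtain ⟨G', hG'⟩ := exists_equiv hinj
  refine ⟨ζ, G', hg.continuousAt, hg0, h3, h1.continuousAt, ?_⟩
  rw [hG']
  exact (contDiffAt_chart hg).hasStrictFDerivAt (by simp)

/-- **`F` is a covering of the fibre.** -/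
theorem isCovering [T2Space Z] [T2Space F] [CompactSpace F] (h : QD n S Q)
    (ihol : ContMDiff 𝓘(ℂ, Cm d) 𝓘(ℂ, Cm n) ω i)
    (imm : ∀ x, Function.Injective (mfderiv 𝓘(ℂ, Cm d) 𝓘(ℂ, Cm n) i x))
    {B : Set Z} (hB : range Q = B) (hi : ∀ x, i x ∈ B) :
    IsCoveringMap fun x : F => (⟨i x, hi x⟩ : B) := by
  subst hB
  have isub : range i ⊆ range Q := by rintro _ ⟨x, rfl⟩; exact hi x
  rw [← isLocalHomeomorph_iff_isCoveringMap]
  have hc : Continuous fun x : F => (⟨i x, hi x⟩ : range Q) :=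
    ihol.continuous.subtype_mk _
  refine isLocalHomeomorph_of hc ?_ ?_
  · -- locally injective
    intro x₀
    obtain ⟨j, z, hz, hjz⟩ := h.exists_sheet (hi x₀)
    obtain ⟨ζ, G', h1, h2, h3, h5, h4⟩ := exists_coord h ihol imm isub (Sh.mem3 hz) hjz.symm
    set ch := chartAt (Cm d) x₀ with hch
    have e1 := h4.eventually_left_inverse
    have e2 : ∀ᶠ x in 𝓝 x₀, h4.localInverse _ _ _ (ζ (i (ch.symm (ch x)))) = ch x :=
      (ch.continuousAt (mem_chart_source _ x₀)).eventually e1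
    have e3 : ∀ᶠ x in 𝓝 x₀, x ∈ ch.source :=
      ch.open_source.mem_nhds (mem_chart_source _ x₀)
    refine ⟨_, inter_mem e2 e3, ?_⟩
    rintro x ⟨hx, hxs⟩ x' ⟨hx', hxs'⟩ hxx
    have hxx' : i x = i x' := congrArg Subtype.val hxx
    have a1 : h4.localInverse _ _ _ (ζ (i (ch.symm (ch x)))) = ch x := hx
    have a2 : h4.localInverse _ _ _ (ζ (i (ch.symm (ch x')))) = ch x' := hx'
    rw [ch.left_inv hxs] at a1
    rw [ch.left_inv hxs'] at a2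
    rw [hxx'] at a1
    exact ch.injOn hxs hxs' (a1.symm.trans a2)
  · -- open
    intro x₀
    refine le_antisymm hc.continuousAt ?_
    obtain ⟨j, z, hz, hjz⟩ := h.exists_sheet (hi x₀)
    obtain ⟨ζ, G', h1, h2, h3, h5, h4⟩ := exists_coord h ihol imm isub (Sh.mem3 hz) hjz.symm
    set ch := chartAt (Cm d) x₀ with hch
    have hmap : Filter.map (fun x => ζ (i x)) (𝓝 x₀) = 𝓝 z := by
      have e1 := h4.map_nhds_eq_of_equiv
      rw [ch.left_inv (mem_chart_source _ x₀), h2] at e1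
      rw [← e1, ← ch.map_nhds_eq (mem_chart_source _ x₀), Filter.map_map]
      refine Filter.map_congr ?_
      filter_upwards [ch.open_source.mem_nhds (mem_chart_source _ x₀)] with x hx'
      show ζ (i x) = ζ (i (ch.symm (ch x)))
      rw [ch.left_inv hx']
    intro U hU
    rw [Filter.mem_map] at hU
    -- nearby points of the fibre are images of points of `F` near `x₀`
    have h6 : ∀ᶠ x in 𝓝 (i x₀), x ∈ range Q → Q (S.σ j (ζ x)) = x := by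
      rw [← hjz]; exact h3
    have h7 : ∀ᶠ x' in 𝓝 x₀, (⟨i x', hi x'⟩ : range Q) ∈ U ∧ Q (S.σ j (ζ (i x'))) = i x' := by
      filter_upwards [hU, ihol.continuous.continuousAt.eventually h6] with x' a b
      exact ⟨a, b (hi x')⟩
    have h8 : ∀ᶠ u in 𝓝 z, ∃ x', ζ (i x') = u ∧ (⟨i x', hi x'⟩ : range Q) ∈ U ∧
        Q (S.σ j (ζ (i x'))) = i x' := by
      rw [← hmap, eventually_map]
      filter_upwards [h7] with x' hx' using ⟨x', rfl, hx'⟩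
    have h9 : ∀ᶠ y in 𝓝 (i x₀), ∃ x', ζ (i x') = ζ y ∧ (⟨i x', hi x'⟩ : range Q) ∈ U ∧
        Q (S.σ j (ζ (i x'))) = i x' := by
      have h5' : ContinuousAt ζ (i x₀) := by rw [← hjz]; exact h5
      refine h5'.eventually (p := fun u => ∃ x', ζ (i x') = u ∧
        (⟨i x', hi x'⟩ : range Q) ∈ U ∧ Q (S.σ j (ζ (i x'))) = i x') ?_
      rw [h2]
      exact h8
    have h10 : ∀ᶠ y : range Q in 𝓝 (⟨i x₀, hi x₀⟩ : range Q), y ∈ U := by
      have h11 := (continuous_subtype_val.tendsto (⟨i x₀, hi x₀⟩ : range Q)).eventually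
        (h9.and h6)
      filter_upwards [h11] with y hy
      obtain ⟨⟨x', e1, e2, e3⟩, e4⟩ := hy
      have e5 : i x' = (y : Z) := by rw [← e3, e1, e4 y.2]
      have e6 : (⟨i x', hi x'⟩ : range Q) = y := Subtype.ext e5
      rw [← e6]
      exact e2
    exact h10

end cover

/-- **E6** -/
theorem fibE : FibEStmt := by
  intro p d r X Y X₁ Y₁ _ _ _ _ _ _ _ _ _ _ _ _ _ _ _ _ f f₁ u v S S₁ y y₁ F _ hFT _ i hd hsq hAB
    hCore hG
  obtain ⟨E₀, Γ₀, tE₀, t2₀, sc₀, gΓ₀, aΓ₀, cΓ₀, 𝓕₀, q₀, M₀, ht₀, -⟩ :=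
    hAB p d X Y f S hd hsq.hol hsq.proper y hsq.out
  have hyy : (chartAt (Cm p) y).symm (chartAt (Cm p) y y) = y :=
    (chartAt (Cm p) y).left_inv (mem_chart_source _ y)
  have hqd₀ := qd_of_model M₀ ht₀
  have hFc : CompactSpace F := hsq.fibre.compact
  have hFn : ConnectedSpace F := hsq.fibre.connected
  have hFm : IsManifold 𝓘(ℂ, Cm d) ω F := hsq.fibre.manifold
  have hri : range (q₀ (chartAt (Cm p) y y)) = f ⁻¹' {y} := by
    rw [range_of_model M₀ ht₀, hyy]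
  have hib : ∀ x, i x ∈ f ⁻¹' {y} := fun x => hsq.fibre.fibre x
  have hcov : IsCoveringMap fun x : F => (⟨i x, hib x⟩ : f ⁻¹' {y}) :=
    isCovering hqd₀ hsq.fibre.hol hsq.fibre.immersion hri hib
  have hfinite : ∀ b : f ⁻¹' {y}, ((fun x : F => (⟨i x, hib x⟩ : f ⁻¹' {y})) ⁻¹' {b}).Finite := by
    intro b
    have h1 : IsClosed ((fun x : F => (⟨i x, hib x⟩ : f ⁻¹' {y})) ⁻¹' {b}) :=
      isClosed_singleton.preimage hcov.continuous
    have h2 : DiscreteTopology ((fun x : F => (⟨i x, hib x⟩ : f ⁻¹' {y})) ⁻¹' {b}) :=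
      (hcov b).discreteTopology_fiber
    exact h1.isCompact.finite ⟨h2⟩
  obtain ⟨E, Γ, tE, t2, sc, gΓ, aΓ, cΓ, 𝓕, q, M, ht, -⟩ :=
    hAB p d X₁ Y₁ f₁ S₁ hd hsq.hol₁ hsq.proper₁ y₁ hsq.out₁
  have hyy₁ : (chartAt (Cm p) y₁).symm (chartAt (Cm p) y₁ y₁) = y₁ :=
    (chartAt (Cm p) y₁).left_inv (mem_chart_source _ y₁)
  have hqd := qd_of_model M ht
  have hrq : range (q (chartAt (Cm p) y₁ y₁)) = f₁ ⁻¹' {y₁} := by
    rw [range_of_model M ht, hyy₁]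
  set Q := q (chartAt (Cm p) y₁ y₁) with hQ
  have hvy : v y₁ = y := by
    have h1 : y₁ ∈ v ⁻¹' {y} := by rw [hsq.pre]; rfl
    exact h1
  have huQ : ∀ e, u (Q e) ∈ f ⁻¹' {y} := by
    intro e
    have h2 : f₁ (Q e) = y₁ := by
      have h3 : Q e ∈ range Q := ⟨e, rfl⟩
      rw [hrq] at h3
      exact h3
    show f (u (Q e)) = y
    rw [hsq.comm, h2, hvy]
  have hcu : ContMDiff 𝓘(ℂ, Cm (p + d)) 𝓘(ℂ, Cm (p + d)) ω u := hsq.modif.2.1
  -- the point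
  obtain ⟨x, φ, a1, a2, a3⟩ := hG
  choose hφ1 η hη1 hη2 using a1
  have hdense : Dense (i ⁻¹' (u '' H64.Gen.excSet (Cm (p + d)) u))ᶜ :=
    H383.Gen.dense_compl_small (H308.Bir.small_of_small2 hsq.small)
  have hnear : ∀ᶠ x' in 𝓝 x, x' ∈ (chartAt (Cm d) x).source ∧
      (∀ k a, ∀ᶠ x'' in 𝓝 x', J.HolAt (Cm d) (φ k a) x'' ∧
        η k a x'' = J.dif (Cm d) (φ k a) x'') ∧
      (coef x (φ 0) (chartAt (Cm d) x x') ≠ 0 ∧
        Function.Surjective fun (ξ : Cm d) (k : Fin r) =>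
          fderiv ℂ (fun v => coef x (φ k.succ) v / coef x (φ 0) v) (chartAt (Cm d) x x') ξ) := by
    have e1 : ∀ᶠ x' in 𝓝 x, x' ∈ (chartAt (Cm d) x).source :=
      (chartAt (Cm d) x).open_source.mem_nhds (mem_chart_source _ x)
    have e2 : ∀ᶠ x' in 𝓝 x, ∀ k a, ∀ᶠ x'' in 𝓝 x', J.HolAt (Cm d) (φ k a) x'' ∧
        η k a x'' = J.dif (Cm d) (φ k a) x'' :=
      eventually_all.2 fun k => eventually_all.2 fun a =>
        ((holAt_eventually (hφ1 k a)).and (hη1 k a)).eventually_nhds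
    have e3 := ((chartAt (Cm d) x).continuousAt (mem_chart_source _ x)).eventually
      (gauss_ev (fun k a => hφ1 k a) a2 a3)
    filter_upwards [e1, e2, e3] with x' b1 b2 b3
    exact ⟨b1, b2, b3⟩
  obtain ⟨x', hx'N, b1, b2, b3, b4⟩ := hdense.inter_nhds_nonempty hnear
  obtain ⟨z₁, hz₁⟩ := surj_modif hsq.modif (i x')
  have hz₁e : Function.Bijective (mfderiv 𝓘(ℂ, Cm (p + d)) 𝓘(ℂ, Cm (p + d)) u z₁) := by
    by_contra hcon
    exact hx'N ⟨z₁, hcon, hz₁⟩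
  have hz₁f : f₁ z₁ = y₁ := by
    have h1 : v (f₁ z₁) = y := by
      rw [← hsq.comm, hz₁]
      exact hsq.fibre.fibre x'
    have h2 : f₁ z₁ ∈ v ⁻¹' {y} := h1
    rw [hsq.pre] at h2
    exact h2
  have hz₁r : z₁ ∈ range Q := by rw [hrq]; exact hz₁f
  obtain ⟨e₁, he₁⟩ := hz₁r
  -- the lift
  have hLP : LocallyPathConnectedSpace E := locPath (𝓕.at _ ht)
  have hw : Continuous fun e => (⟨u (Q e), huQ e⟩ : f ⁻¹' {y}) :=
    (hcu.continuous.comp hqd.Qcont).subtype_mk _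
  obtain ⟨π, hcont, hπ', hπe, hcore⟩ := exists_lift (Γ := Γ) hcov hw
    (fun γ e => Subtype.ext (congrArg u ((hqd.Qeq e (γ • e)).2 ⟨γ, rfl⟩).symm))
    (e₀ := e₁) (x₀ := x') (Subtype.ext (by
      show i x' = u (Q e₁)
      rw [he₁, hz₁])) (hfinite _)
  have hπ : ∀ e, i (π e) = u (Q e) := fun e => congrArg Subtype.val (hπ' e)
  set m := ((fun x : F => (⟨i x, hib x⟩ : f ⁻¹' {y})) ⁻¹' {⟨u (Q e₁), huQ e₁⟩}).ncard with hm
  have hinv : ∀ (κ : core Γ m) e, π (κ • e) = π e := fun κ e => hcore m le_rfl κ κ.2 e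
  have hfin : (core Γ m).FiniteIndex := hCore d m E Γ (𝓕.at _ ht) hd
  set S₂ := sub (𝓕.at _ ht) (core Γ m) with hS₂
  have hQσ : ∀ j y, Q (S₂.σ j y) = Q (𝓕.σ (idx (core Γ m) 𝓕.N j).1 _ y) := fun j y =>
    ((hqd.Qeq _ _).2 ⟨rep (core Γ m) (idx (core Γ m) 𝓕.N j).2, rfl⟩).symm
  have hqm : ∀ j, ∀ z ∈ ball (0 : Cm d) 3, MDifferentiableAt 𝓘(ℂ, Cm d) 𝓘(ℂ, Cm (p + d))
      (fun y => Q (𝓕.σ (idx (core Γ m) 𝓕.N j).1 (chartAt (Cm p) y₁ y₁) y)) z := fun j z hz =>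
    (hqd.hol _ z hz).mdifferentiableAt (by simp)
  have hder : ∀ j, ∀ z ∈ ball (0 : Cm d) 3,
      MDifferentiableAt 𝓘(ℂ, Cm d) 𝓘(ℂ, Cm d) (fun y => π (S₂.σ j y)) z := by
    intro j z hz
    refine mdiff_lift (n := p + d) (i := i)
      (w := fun y => u (Q (𝓕.σ (idx (core Γ m) 𝓕.N j).1 (chartAt (Cm p) y₁ y₁) y)))
      (hsq.fibre.hol _) (hsq.fibre.immersion _)
      (hcont.continuousAt.comp (S₂.map_nhds j z hz).le) ?_ fun y => ?_
    · exact (HasMFDerivAt.comp z ((hcu _).mdifferentiableAt (by simp)).hasMFDerivAt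
        (hqm j z hz).hasMFDerivAt).mdifferentiableAt
    · show i (π (S₂.σ j y)) = _
      rw [hπ, hQσ]
  have hW : PiW S₂ π := ⟨hcont, hinv, hder⟩
  obtain ⟨κ, j, z, hz, hκ⟩ := S₂.cover e₁
  have hz3 : z ∈ ball (0 : Cm d) 3 := mem_ball_zero_iff.2 (by linarith)
  have hπx : π (S₂.σ j z) = x' := by
    rw [← hinv κ, hκ, hπe]
  have hQz : Q (𝓕.σ (idx (core Γ m) 𝓕.N j).1 (chartAt (Cm p) y₁ y₁) z) = z₁ := by
    rw [← hQσ, ← he₁, ← hκ]
    exact (hqd.Qeq _ _).2 ⟨(κ : Γ), rfl⟩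
  have hinj : Function.Injective (D S₂ π j z) := by
    refine inj_lift (n := p + d) (m := p + d) (i := i) (u := u)
      (q := fun y => Q (𝓕.σ (idx (core Γ m) 𝓕.N j).1 (chartAt (Cm p) y₁ y₁) y))
      ((hsq.fibre.hol _).mdifferentiableAt (by simp))
      ((hcu _).mdifferentiableAt (by simp)) (hder j z hz3) (hqm j z hz3) (fun y => ?_) ?_
      (hqd.imm hz3)
    · show i (π (S₂.σ j y)) = _
      rw [hπ, hQσ]
    · show Function.Injective (mfderiv 𝓘(ℂ, Cm (p + d)) 𝓘(ℂ, Cm (p + d)) u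
        (Q (𝓕.σ (idx (core Γ m) 𝓕.N j).1 (chartAt (Cm p) y₁ y₁) z)))
      rw [hQz]
      exact hz₁e.1
  have hres := gaussAtW (r := r) hW x hz3 (by rw [hπx]; exact b1) hinj φ η hη2
    (fun k a => by rw [hπx]; exact b2 k a) (by rw [hπx]; exact b3) (by rw [hπx]; exact b4)
  exact ⟨m, E, Γ, tE, t2, sc, gΓ, aΓ, cΓ, 𝓕, q, chartAt (Cm p) y₁, _, ht, hfin, M, hyy₁, j, z,
    hz3, hres⟩

end Vale.Agent.P281.H603.TE
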