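import Vale.Agent.P281.H603.K.F1
import Vale.Agent.P281.H64.TE.Spec

/-!
# P281, project T-E (helper603), block E2
-/

open Set Filter Metric
open scoped Topology

noncomputable section

namespace Vale.Agent.P281.H603.TE

open Vale.Agent.P281.H64.TK

/-- **E2** -/
theorem coreS : TE.CoreStmt := by
  intro d m E Γ _ _ _ _ _ _ S _
  have : Group.FG Γ := K.fg_of S
  exact core_finiteIndex m

end Vale.Agent.P281.H603.TE
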