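import Vale.Agent.P281.H603.TE.AlbC

/-!
# P281, project T-E (helper603), block E3: change of the local data, and the assembly
-/

open Set Filter Metric MeasureTheory Vale.Agent.P281 Vale.Agent.P281.H713 Vale.Agent.P272.K
open scoped Topology ContDiff Manifold ComplexConjugate NNReal

set_option linter.unusedSectionVars false

noncomputable section

namespace Vale.Agent.P281.H603.TE

open Vale.Agent.P281.H64 (Mark Qf Qf_eq bil_eq linV linV_apply functional_eq)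
open Vale.Agent.P281.H64.TK Vale.Agent.P281.H603.K Vale.Agent.P281.H864.K
open Vale.Agent.P281.H64.TU (TameIn KTame TameBoundStmt NormStmt)

attribute [local instance] ccs

variable {p d : ℕ} {Z Y : Type} [TopologicalSpace Z] [T2Space Z] [ChartedSpace (Cm (p + d)) Z]
  [IsManifold 𝓘(ℂ, Cm (p + d)) ω Z] [TopologicalSpace Y] [T2Space Y] [ChartedSpace (Cm p) Y]
  [IsManifold 𝓘(ℂ, Cm p) ω Y] {f : Z → Y}
  {w : Chart (p + d) Z → Cm (p + d) → Matrix (Fin (p + d)) (Fin (p + d)) ℂ} {m n g : ℕ}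
  {B : Matrix (Fin n) (Fin n) ℝ}

namespace DLocE

/-- **change** -/
theorem changeE (I : Inputs) (hd : 0 < d) (hn : n = 2 * g)
    (hf : ContMDiff 𝓘(ℂ, Cm (p + d)) 𝓘(ℂ, Cm p) ω f) (hw : IsKahler w)
    (L L' : DLocE (p := p) (d := d) f w m B g)
    (D D' : (Fin n → ℝ) ≃L[ℝ] EuclideanSpace ℂ (Fin g)) {x : Z} (hx : f x ∈ L.U)
    (hx' : f x ∈ L'.U) {β β' : Z → EuclideanSpace ℂ (Fin g)} (hβ : L.IsLift x β)
    (hβ' : L'.IsLift x β') :
    ∃ (G : EuclideanSpace ℂ (Fin g) ≃L[ℂ] EuclideanSpace ℂ (Fin g)) (b : EuclideanSpace ℂ (Fin g)),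
      IsPeriodChange (Qf B) (L.π D (f x)) (L'.π D' (f x)) G ∧
        ∀ᶠ z in 𝓝 x, f z = f x → β' z = G (β z) + b := by
  obtain ⟨-, γ, i, ζ, ⟨h1, h2, h3⟩, h4⟩ := hβ
  obtain ⟨-, γ', i', ζ', ⟨h1', h2', h3'⟩, h4'⟩ := hβ'
  set y := f x with hy
  have ht := L.hT' hx.2
  have ht' := L'.hT' hx'.2
  set t := L.χ y with htd
  set t' := L'.χ y with htd'
  obtain ⟨τ, ρ, hq, hc, -⟩ := compareE I hd hf hw L.model L'.model L.pull L'.pull ht ht'
    (by rw [htd, htd', L.left_inv hx, L'.left_inv hx']) m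
  -- the points over `x`
  have k3 := h3.self_of_nhds
  have k3' := h3'.self_of_nhds
  have k4 : L'.q t' (τ (γ • L.𝓕.σ i t (ζ x))) = L'.q t' (γ' • L'.𝓕.σ i' t' (ζ' x)) := by
    rw [hq, L.q_smul hx, L'.q_smul hx']
    exact k3.trans k3'.symm
  obtain ⟨δ, hδ⟩ := (L'.model.eq _ ht' _ _).1 k4
  have hc' := hc.smul δ
  have hcK := hc'.sub (K := core L.Γ m) (K' := core L'.Γ m)
    fun _ => map_core (ρ.trans (MulAut.conj δ)) m
  obtain ⟨hB, -⟩ := L.F2_at I.f2 hd hn hx.2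
  obtain ⟨G, b, hG, hGF⟩ := hcK.change I hd (kah_fW _ L.kfam ht) (kah_fW _ L'.kfam ht')
    (L.form _ ht) (L'.form _ ht') hB (L.bas _ hx.2) (L'.bas _ hx'.2)
    (π_spec I.f2 hd hn D hx) (π_spec I.f2 hd hn D' hx')
  refine ⟨G, b, hG, ?_⟩
  set τ' := τ.trans (Homeomorph.smul δ) with hτ'
  have hτx : τ' (γ • L.𝓕.σ i t (ζ x)) = γ' • L'.𝓕.σ i' t' (ζ' x) := hδ
  -- continuity along the fibre
  have hcont : ContinuousAt (fun z => τ' (γ • L.𝓕.σ i t (ζ z))) x := by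
    refine τ'.continuous.continuousAt.comp ?_
    refine (continuous_const_smul γ).continuousAt.comp ?_
    exact ContinuousAt.comp (g := L.𝓕.σ i t) (f := ζ) (Sh.contAt (L.sh hx) i h2) h1.continuousAt
  have hopen : (fun u => γ' • L'.𝓕.σ i' t' u) '' ball (0 : Cm d) 3 ∈
      𝓝 (τ' (γ • L.𝓕.σ i t (ζ x))) := by
    rw [hτx]
    exact (Sh.isOpen_image_smul (L'.sh hx') γ' i' isOpen_ball (Subset.refl _)).mem_nhds
      ⟨_, h2', rfl⟩
  have e1 := hcont.eventually hopen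
  have e2 : ∀ᶠ z in 𝓝 x, ζ' z ∈ ball (0 : Cm d) 3 :=
    h1'.continuousAt.eventually (isOpen_ball.mem_nhds h2')
  filter_upwards [h3, h4, h3', h4', e1, e2] with z a3 a4 a3' a4' a5 a6 hz
  rw [hz] at a3 a4 a3' a4'
  obtain ⟨u, hu, hue⟩ := a5
  have hue' : γ' • L'.𝓕.σ i' t' u = τ' (γ • L.𝓕.σ i t (ζ z)) := hue
  have a7 : L'.q t' (γ' • L'.𝓕.σ i' t' u) = L'.q t' (L'.𝓕.σ i' t' (ζ' z)) := by
    rw [hue']
    have e3 : L'.q t' (τ' (γ • L.𝓕.σ i t (ζ z))) = L'.q t' (τ (γ • L.𝓕.σ i t (ζ z))) :=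
      L'.q_smul hx' δ _
    rw [e3, hq, L.q_smul hx]
    exact a3.trans a3'.symm
  have a8 : u = ζ' z := eq_of_q hx' (γ := γ') (i := i') hu a6 a7
  rw [a4, a4']
  have h5 := hGF (γ • L.𝓕.σ i t (ζ z))
  rw [← hue', a8] at h5
  exact h5

end DLocE

/-- **E3** -/
theorem albE (I : Inputs) (hTB : TameBoundStmt) (hNo : NormStmt) : TE.AlbEStmt := by
  intro p d m r Z Y _ _ _ _ _ _ _ _ f S w hd hf hP hconn hw hN hN' hne
  obtain ⟨y₁, hy₁⟩ := hne
  obtain ⟨n, g, hn, B, hL⟩ := dglobE I hd m hf hw hP hconn hy₁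
  choose L h1 h2 h3 using fun a : {y // y ∉ S} => hL a.1 a.2
  have h4 : ∀ a, a.1 ∈ (L a).U := fun a => ⟨h1 a, h2 a⟩
  choose hB D hD using fun a => (L a).F2_at I.f2 hd hn (h2 a)
  have hSU : ∀ a y, y ∈ (L a).U → y ∉ S := by
    intro a y hy
    have h5 := h3 a _ hy.2
    rwa [(L a).left_inv hy] at h5
  refine ⟨g, n, Qf B, {y // y ∉ S}, fun a => (L a).U, fun a => (L a).π (D a),
    fun a x β => (L a).IsLift x β, ?_⟩
  constructor
  · constructor
    · intro y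
      constructor
      · intro hy
        exact ⟨⟨y, hy⟩, h4 ⟨y, hy⟩⟩
      · rintro ⟨a, ha⟩
        exact hSU a y ha
    · exact fun a => (L a).isOpen_U
    · exact fun a x y hy => DLocE.hol_π I.f2 hd hn (D a) x hy
    · exact fun a y hy => DLocE.polarized I.f2 hd hn (D a) hy
  · intro x hx
    exact DLocE.coord (L := L ⟨f x, hx⟩) hf (h4 ⟨f x, hx⟩)
  · exact fun a x hx => DLocE.exists_isLift hx
  · exact fun a x β hβ => DLocE.IsLift.hol hf hβ
  · exact fun a x β hβ => DLocE.IsLift.near hf hβ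
  · intro a y hy
    exact DLocE.nondegE I hd hf hw hy (hN y (hSU a y hy)) (hN' y (hSU a y hy))
  · intro r K hr hK
    obtain ⟨A, hA⟩ := hTB d r K hd hr hK
    refine ⟨max A 0, fun a q v₀ hq hT hy => ?_⟩
    exact DLocE.boundE (L := L a) hNo I.f2 hd hn hr hA (D a) hq hT hy
  · intro a b x hx hx' β β' hβ hβ'
    exact DLocE.changeE I hd hn hf hw (L a) (L b) (D a) (D b) hx hx' hβ hβ'

end Vale.Agent.P281.H603.TE
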