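import Vale.Agent.P281.H603.TE.AlbB

/-!
# P281, project T-E (helper603), block E3: bounds
-/

open Set Filter Metric MeasureTheory Vale.Agent.P281 Vale.Agent.P281.H713 Vale.Agent.P272.K
open scoped Topology ContDiff Manifold ComplexConjugate NNReal

set_option linter.unusedSectionVars false

noncomputable section

namespace Vale.Agent.P281.H603.TE

open Vale.Agent.P281.H64 (Mark Qf Qf_eq bil_eq linV linV_apply functional_eq)
open Vale.Agent.P281.H64.TK Vale.Agent.P281.H603.K Vale.Agent.P281.H864.K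
open Vale.Agent.P281.H64.TU (TameIn KTame TameBoundStmt NormStmt)

attribute [local instance] ccs

/-! ### Slices in the coverings -/

section
variable {d : ℕ} {E Γ : Type} [TopologicalSpace E] [Group Γ] [MulAction Γ E]
  [ContinuousConstSMul Γ E] {S : Sheets d E Γ} (K : Subgroup Γ) [K.FiniteIndex]

theorem polyIn_sub {q : Cm d → E} {v₀ : Cm d} {r : ℝ} (h : PolyIn S q v₀ r) :
    PolyIn (sub S K) q v₀ r where
  hol v hv i z hz κ he := by
    have h1 : q v = ((κ : Γ) * rep K (idx K S.N i).2) • S.σ (idx K S.N i).1 z := by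
      rw [mul_smul]
      exact he
    obtain ⟨θ, h2, h3, h4⟩ := h.hol v hv _ z hz _ h1
    refine ⟨θ, h2, h3, ?_⟩
    filter_upwards [h4] with u hu
    rw [hu, mul_smul]
    rfl
  inj v hv v' hv' κ he := h.inj v hv v' hv' (κ : Γ) he

theorem tameIn_sub {w : Fin S.N → Cm d → Matrix (Fin d) (Fin d) ℂ} {C : ℝ} {q : Cm d → E}
    {v₀ : Cm d} {r : ℝ} (h : TameIn S w C q v₀ r) :
    TameIn (sub S K) (fun i => w (idx K S.N i).1) C q v₀ r := by
  intro v hv i z hz κ θ hθ hθz hev ξ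
  refine h v hv (idx K S.N i).1 z hz ((κ : Γ) * rep K (idx K S.N i).2) θ hθ hθz ?_ ξ
  filter_upwards [hev] with u hu
  rw [mul_smul]
  exact hu

end

/-! ### Slices of `Z` -/

section model
variable {p d : ℕ} {Z Y : Type} [TopologicalSpace Z] [T2Space Z] [ChartedSpace (Cm (p + d)) Z]
  [IsManifold 𝓘(ℂ, Cm (p + d)) ω Z] [TopologicalSpace Y] [T2Space Y] [ChartedSpace (Cm p) Y]
  [IsManifold 𝓘(ℂ, Cm p) ω Y] {f : Z → Y}
  {w : Chart (p + d) Z → Cm (p + d) → Matrix (Fin (p + d)) (Fin (p + d)) ℂ}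
  {E Γ : Type} [TopologicalSpace E] [T2Space E] [SimplyConnectedSpace E] [Group Γ]
  [MulAction Γ E] [ContinuousConstSMul Γ E] {𝓕 : Fam p d E Γ} {Qm : Cm p → E → Z}
  {χ : OpenPartialHomeomorph Y (Cm p)}

/-- lift of a polydisc to the covering -/
theorem lift_polyM (M : Model (n := p + d) f 𝓕 χ Qm) {y : Y} (hs : y ∈ χ.source)
    (ht : χ y ∈ 𝓕.T) {q : Cm d → Z}
    {v₀ : Cm d} {r : ℝ} (hq : IsPolydisc (Cm (p + d)) f q v₀ r) (hqy : f (q v₀) = y) (hr : 0 < r) :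
    ∃ q' : Cm d → E, (∀ v ∈ ball v₀ r, Qm (χ y) (q' v) = q v) ∧
      PolyIn (𝓕.at (χ y) ht) q' v₀ r := by
  classical
  obtain ⟨hq1, hq2, hq3⟩ := hq
  have hfy : ∀ v ∈ ball v₀ r, f (q v) = χ.symm (χ y) := fun v hv => by
    rw [hq3 v hv, hqy, χ.left_inv hs]
  have hcov := M.cov _ ht
  have : LocallyPathConnectedSpace (ball v₀ r) := isOpen_ball.locallyPathConnectedSpace
  have : ContractibleSpace (ball v₀ r) :=
    (convex_ball v₀ r).contractibleSpace (nonempty_ball.2 hr)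
  let φ : C(ball v₀ r, f ⁻¹' {χ.symm (χ y)}) := ⟨fun v => ⟨q v, hfy v v.2⟩, by
    refine Continuous.subtype_mk ?_ _
    have h1 : ContinuousOn q (ball v₀ r) := fun v hv => (hq1 v hv).continuousAt.continuousWithinAt
    exact h1.comp_continuous continuous_subtype_val fun v => v.2⟩
  have hv₀ : v₀ ∈ ball v₀ r := mem_ball_self hr
  obtain ⟨e₀, he₀⟩ : ∃ e₀, Qm (χ y) e₀ = q v₀ := by
    have := M.surj (q v₀) (by rw [hqy]; exact hs) (by rw [hqy]; exact ht)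
    rw [hqy] at this
    exact this
  obtain ⟨Φ, ⟨hΦ0, hΦ⟩, -⟩ := hcov.existsUnique_continuousMap_lifts φ ⟨v₀, hv₀⟩ e₀
    (Subtype.ext he₀)
  have hΦ' : ∀ v : ball v₀ r, Qm (χ y) (Φ v) = q v := fun v =>
    congrArg Subtype.val (congrFun hΦ v)
  set q' : Cm d → E := fun v => if h : v ∈ ball v₀ r then Φ ⟨v, h⟩ else Classical.arbitrary _
    with hq'
  have hq'v : ∀ v (hv : v ∈ ball v₀ r), q' v = Φ ⟨v, hv⟩ := fun v hv => by
    rw [hq']
    simp only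
    rw [dif_pos hv]
  have hqq : ∀ v ∈ ball v₀ r, Qm (χ y) (q' v) = q v := fun v hv => by
    rw [hq'v v hv, hΦ']
  have hcont : ∀ v ∈ ball v₀ r, ContinuousAt q' v := by
    intro v hv
    have h1 : ContinuousOn q' (ball v₀ r) := by
      rw [continuousOn_iff_continuous_domRestrict]
      have h2 : (ball v₀ r).domRestrict q' = Φ := by
        funext v
        exact hq'v v v.2
      rw [h2]
      exact Φ.continuous
    exact h1.continuousAt (isOpen_ball.mem_nhds hv)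
  refine ⟨q', hqq, ⟨fun v hv i z hz γ he => ?_, fun v hv v' hv' γ he => ?_⟩⟩
  · have hpt : Qm (χ y) (𝓕.σ i (χ y) z) = q v := by
      rw [← hqq v hv, he]
      exact (M.eq _ ht _ _).2 ⟨γ, rfl⟩
    obtain ⟨ζ, h1, h2, h3⟩ := M.coord i _ ht z hz
    rw [hpt] at h1 h2 h3
    have hqc := (hq1 v hv).continuousAt
    have han : AnalyticAt ℂ (fun u => ζ (q u)) v := by
      have h4 : ContMDiffAt 𝓘(ℂ, Cm d) 𝓘(ℂ, Cm d) ω (fun u => ζ (q u)) v :=
        ContMDiffAt.comp v (g := ζ) (f := q) h1 (hq1 v hv)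
      have h5 : ContDiffAt ℂ ω (fun u => ζ (q u)) v := h4.contDiffAt
      exact h5.analyticAt
    refine ⟨fun u => ζ (q u), han, h2, ?_⟩
    have hopen : (fun w => γ • 𝓕.σ i (χ y) w) '' ball 0 3 ∈
        𝓝 (γ • 𝓕.σ i (χ y) z) :=
      (Sh.isOpen_image_smul (𝓕.at (χ y) ht) γ i isOpen_ball (Subset.refl _)).mem_nhds
        ⟨z, hz, rfl⟩
    have h4 : ∀ᶠ u in 𝓝 v, q' u ∈ (fun w => γ • 𝓕.σ i (χ y) w) '' ball 0 3 :=
      (hcont v hv).eventually (by
        show ∀ᶠ e in 𝓝 (q' v), e ∈ _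
        rw [he]; exact hopen)
    have h5 : ∀ᶠ u in 𝓝 v, ζ (q u) ∈ ball (0 : Cm d) 3 := han.continuousAt.eventually (by
      show ∀ᶠ w in 𝓝 (ζ (q v)), w ∈ ball (0 : Cm d) 3
      rw [h2]; exact isOpen_ball.mem_nhds hz)
    filter_upwards [hqc.eventually h3, h4, h5, isOpen_ball.mem_nhds hv] with u a b c hu
    obtain ⟨w, hw, hwe⟩ := b
    simp only at hwe
    have hχ : χ (f (q u)) = χ y := by rw [hq3 u hu, hqy]
    rw [hχ] at a
    have h6 : Qm (χ y) (𝓕.σ i (χ y) w) =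
        Qm (χ y) (𝓕.σ i (χ y) (ζ (q u))) := by
      rw [a, ← hqq u hu, ← hwe]
      exact (M.eq _ ht _ _).2 ⟨γ, rfl⟩
    obtain ⟨γ₂, hγ₂⟩ := (M.eq _ ht _ _).1 h6
    obtain ⟨-, h8⟩ := 𝓕.inj i _ ht w hw _ c γ₂ hγ₂
    rw [← hwe, h8]
    rfl
  · apply hq2 hv hv'
    rw [← hqq v hv, ← hqq v' hv', he]
    exact ((M.eq _ ht _ _).2 ⟨γ, rfl⟩).symm

/-- tame slices of `Z` are tame slices of `E` -/
theorem tameInM (M : Model (n := p + d) f 𝓕 χ Qm)
    {W : Fin 𝓕.N → Cm p × Cm d → Matrix (Fin p ⊕ Fin d) (Fin p ⊕ Fin d) ℂ}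
    (hW' : IsPull w 𝓕 Qm W) {t : Cm p} (ht : t ∈ 𝓕.T) {q : Cm d → Z} {v₀ : Cm d} {r C : ℝ}
    {q' : Cm d → E} (hqq : ∀ v ∈ ball v₀ r, Qm t (q' v) = q v)
    (hT : KTame w C q v₀ r) : TameIn (𝓕.at t ht) (fibW W t) C q' v₀ r := by
  intro v hv i z hz γ θ hθ hθz hev ξ
  have hqv : q v = Qm t (𝓕.σ i t z) := by
    rw [← hqq v hv, hev.self_of_nhds, hθz]
    exact ((M.eq _ ht _ _).2 ⟨γ, rfl⟩).symm
  obtain ⟨e, he⟩ : ∃ e : Chart (p + d) Z, At e (q v) :=
    ⟨chartAt (Cm (p + d)) (q v), chart_mem_atlas _ _, mem_chart_source _ _⟩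
  have he' : At e (Qm t (𝓕.σ i t z)) := by rwa [← hqv]
  have h1 := hT v hv e he ξ
  have hW := H969.K.fibW_eq M hW' ht hz he'
  -- the chain rule
  have hevq : (fun u => e (q u)) =ᶠ[𝓝 v] fun u => e (Qm t (𝓕.σ i t (θ u))) := by
    filter_upwards [hev, isOpen_ball.mem_nhds hv] with u a b
    rw [← hqq u b, a]
    congr 1
    exact ((M.eq _ ht _ _).2 ⟨γ, rfl⟩).symm
  have han : AnalyticAt ℂ (fun u => e (Qm t (𝓕.σ i t u))) z :=
    H969.K.analyticAt_chart he' (contMDiffAt_slice (M.hol i _ ht z hz))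
  have hD : fderiv ℂ (fun u => e (q u)) v ξ =
      fderiv ℂ (fun u => e (Qm t (𝓕.σ i t u))) z (fderiv ℂ θ v ξ) := by
    rw [hevq.fderiv_eq]
    have h2 := fderiv_comp (g := fun u => e (Qm t (𝓕.σ i t u))) v (f := θ)
      (by rw [hθz]; exact han.differentiableAt) hθ.differentiableAt
    have h3 : ((fun u => e (Qm t (𝓕.σ i t u))) ∘ θ) =
        fun u => e (Qm t (𝓕.σ i t (θ u))) := rfl
    rw [h3, hθz] at h2
    rw [h2]
    rfl
  have hD' : ∀ a, fderiv ℂ (fun u => e (q u)) v ξ a =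
      ∑ j, H969.K.jacF 𝓕 Qm e i t z a j * fderiv ℂ θ v ξ j := by
    intro a
    rw [hD]
    have h2 : fderiv ℂ θ v ξ = ∑ j, (fderiv ℂ θ v ξ j) • (Pi.single j (1 : ℂ) : Cm d) := by
      funext l
      simp [Finset.sum_apply, Pi.single_apply]
    conv_lhs => rw [h2]
    rw [map_sum, Finset.sum_apply]
    refine Finset.sum_congr rfl fun j _ => ?_
    rw [map_smul, Pi.smul_apply, smul_eq_mul, mul_comm]
    rfl
  refine h1.trans (le_of_eq ?_)
  congr 2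
  rw [hW, ← hqv]
  simp only [hD']
  exact quad_pull _ _ _

end model

variable {p d : ℕ} {Z Y : Type} [TopologicalSpace Z] [T2Space Z] [ChartedSpace (Cm (p + d)) Z]
  [IsManifold 𝓘(ℂ, Cm (p + d)) ω Z] [TopologicalSpace Y] [T2Space Y] [ChartedSpace (Cm p) Y]
  [IsManifold 𝓘(ℂ, Cm p) ω Y] {f : Z → Y}
  {w : Chart (p + d) Z → Cm (p + d) → Matrix (Fin (p + d)) (Fin (p + d)) ℂ} {m n g : ℕ}
  {B : Matrix (Fin n) (Fin n) ℝ}

namespace DLocE

variable {L : DLocE (p := p) (d := d) f w m B g}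

/-- the bound for the first derivatives -/
theorem boundE (hNo : NormStmt) (hF2 : F2Stmt) (hd : 0 < d) (hn : n = 2 * g) {r C : ℝ}
    (hr : 0 < r) {A : ℝ}
    (hA : ∀ (E Γ : Type) [TopologicalSpace E]
    [T2Space E] [SimplyConnectedSpace E] [Group Γ] [MulAction Γ E] [ContinuousConstSMul Γ E]
    (S : Sheets d E Γ) (w : Fin S.N → Cm d → Matrix (Fin d) (Fin d) ℂ) (h : E → ℂ) (c : Γ → ℂ),
    Kah S w → Add S h c → (S.herm w h h).re ≤ 1 → ∀ (q : Cm d → E) (v₀ : Cm d),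
    PolyIn S q v₀ r → TameIn S w C q v₀ r →
    ∀ v ∈ ball v₀ (r / 2), ‖fderiv ℂ (fun u => h (q u)) v‖ ≤ A)
    (D : (Fin n → ℝ) ≃L[ℝ] EuclideanSpace ℂ (Fin g)) {q : Cm d → Z} {v₀ : Cm d}
    (hq : IsPolydisc (Cm (p + d)) f q v₀ r) (hT : KTame w C q v₀ r) (hy : f (q v₀) ∈ L.U) :
    ∃ h : (Fin d → ℂ) → EuclideanSpace ℂ (Fin g), DifferentiableOn ℂ h (ball v₀ r) ∧
      (∃ β : Z → EuclideanSpace ℂ (Fin g), L.IsLift (q v₀) β ∧ ∀ᶠ v in 𝓝 v₀, β (q v) = h v) ∧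
      ∀ G : EuclideanSpace ℂ (Fin g) ≃L[ℂ] EuclideanSpace ℂ (Fin g),
        (∀ x x', (inner ℂ (G (L.π D (f (q v₀)) x)) (G (L.π D (f (q v₀)) x'))).im = Qf B x x') →
        ∀ v ∈ ball v₀ (r / 2), ‖fderiv ℂ (fun u => G (h u)) v‖ ≤ max A 0 := by
  obtain ⟨q', hqq, hpoly⟩ := lift_polyM L.model hy.1 (L.hT' hy.2) hq rfl hr
  set y := f (q v₀) with hydef
  set t := L.χ y with htdef
  have ht := L.hT' hy.2
  have hbas := L.bas _ hy.2
  set h : Cm d → EuclideanSpace ℂ (Fin g) := fun v => WithLp.toLp 2 (L.F t (q' v)) with hh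
  have hdiff : DifferentiableOn ℂ h (ball v₀ r) := by
    intro v hv
    obtain ⟨γ, i, z, hz, he⟩ := (L.sh hy).cover (q' v)
    have hz3 := Sh.mem3 hz
    obtain ⟨θ, k1, k2, k3⟩ := hpoly.hol v hv i z hz3 γ he.symm
    have h2 : DifferentiableAt ℂ (fun u => (WithLp.toLp 2
        (L.F t (γ • L.𝓕.σ i t (θ u))) : EuclideanSpace ℂ (Fin g))) v :=
      DifferentiableAt.comp (g := fun u => (WithLp.toLp 2
        (L.F t (γ • L.𝓕.σ i t u)) : EuclideanSpace ℂ (Fin g))) (f := θ) v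
        (by rw [k2]; exact differentiableAt_slice hy γ i hz3) k1.differentiableAt
    refine (h2.congr_of_eventuallyEq ?_).differentiableWithinAt
    filter_upwards [k3] with u hu
    rw [hh]
    simp only
    rw [hu]
    rfl
  refine ⟨h, hdiff, ?_, ?_⟩
  · -- the lift
    have hv₀ : v₀ ∈ ball v₀ r := mem_ball_self hr
    obtain ⟨γ, i, z, hz, he⟩ := (L.sh hy).cover (q' v₀)
    have hz3 := Sh.mem3 hz
    obtain ⟨θ, k1, k2, k3⟩ := hpoly.hol v₀ hv₀ i z hz3 γ he.symm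
    have hxz : L.q (L.χ (f (q v₀))) (L.𝓕.σ i (L.χ (f (q v₀))) z) = q v₀ := by
      rw [← L.q_smul hy γ]
      have h1 := hqq v₀ hv₀
      rw [← he] at h1
      exact h1
    obtain ⟨ζ, hco, hζz⟩ := L.exists_co hy hz3 hxz
    refine ⟨_, exists_lift' hy γ hco, ?_⟩
    have hqc : ContinuousAt q v₀ := (hq.1 v₀ hv₀).continuousAt
    have e1 : ∀ᶠ v in 𝓝 v₀, θ v ∈ ball (0 : Cm d) 3 := k1.continuousAt.eventually (by
      show ∀ᶠ u in 𝓝 (θ v₀), u ∈ ball (0 : Cm d) 3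
      rw [k2]
      exact isOpen_ball.mem_nhds hz3)
    have e2 : ∀ᶠ v in 𝓝 v₀, ζ (q v) ∈ ball (0 : Cm d) 3 :=
      hqc.eventually (hco.1.continuousAt.eventually (isOpen_ball.mem_nhds hco.2.1))
    filter_upwards [e1, e2, k3, hqc.eventually hco.2.2, isOpen_ball.mem_nhds hv₀]
      with v a1 a2 a3 a4 a5
    have hfv : f (q v) = y := hq.2.2 v a5
    rw [hfv] at a4
    have a3' : q' v = γ • L.𝓕.σ i t (θ v) := a3
    have a6 : θ v = ζ (q v) := by
      refine eq_of_q hy (γ := γ) (i := i) a1 a2 ?_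
      rw [a4, ← hqq v a5, a3']
    show (WithLp.toLp 2 (L.F (L.χ (f (q v))) (γ • L.𝓕.σ i (L.χ (f (q v))) (ζ (q v)))) :
      EuclideanSpace ℂ (Fin g)) = h v
    rw [hfv, ← a6, hh]
    simp only
    rw [a3']
  · intro G hG v hv
    have hvr : v ∈ ball v₀ r := ball_subset_ball (by linarith) hv
    have hGd : DifferentiableAt ℂ (fun u => G (h u)) v :=
      G.differentiableAt.comp v (hdiff.differentiableAt (isOpen_ball.mem_nhds hvr))
    refine ContinuousLinearMap.opNorm_le_bound _ (le_max_right _ _) fun ξ => ?_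
    obtain ⟨l, hl1, hl2⟩ := exists_dual_vector'' ℂ (fderiv ℂ (fun u => G (h u)) v ξ)
    have hK := kah_fW (core L.Γ m) L.kfam ht
    set c' : core L.Γ m → ℂ := fun γ => l (G (WithLp.toLp 2 (L.c t γ))) with hc'
    have hAdd : Add (L.shK hy) (fun e => l (G (WithLp.toLp 2 (L.F t e)))) c' := by
      set l' : EuclideanSpace ℂ (Fin g) →L[ℂ] ℂ := l.comp (G : EuclideanSpace ℂ (Fin g) →L[ℂ]
        EuclideanSpace ℂ (Fin g)) with hl'
      have h1 := Add.sum hbas.add (fun j => l' (WithLp.toLp 2 (Pi.single j 1)))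
      have h2 : (fun e => l (G (WithLp.toLp 2 (L.F t e)))) =
          fun e => ∑ j, l' (WithLp.toLp 2 (Pi.single j 1)) * L.F t e j := by
        funext e
        exact functional_eq l' _
      have h3 : c' = fun γ => ∑ j, l' (WithLp.toLp 2 (Pi.single j 1)) * L.c t γ j := by
        funext γ
        exact functional_eq l' _
      rw [h2, h3]
      exact h1
    have h4 := hA L.E (core L.Γ m) (L.shK hy) _ _ c' hK hAdd
      (hNo d L.E (core L.Γ m) (L.shK hy) _ n g L.M B _ _ hd hK hn (L.form _ ht) hbas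
        (L.π D y) (π_spec hF2 hd hn D hy) G hG l hl1) q' v₀ (polyIn_sub _ hpoly)
      (tameIn_sub _ (tameInM L.model L.pull ht hqq hT)) v hv
    have h5 : fderiv ℂ (fun u => l (G (WithLp.toLp 2 (L.F t (q' u))))) v =
        l.comp (fderiv ℂ (fun u => G (h u)) v) :=
      (l.hasFDerivAt.comp v hGd.hasFDerivAt).fderiv
    rw [h5] at h4
    have h6 : ‖fderiv ℂ (fun u => G (h u)) v ξ‖ = ‖l (fderiv ℂ (fun u => G (h u)) v ξ)‖ := by
      rw [hl2]
      simp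
    rw [h6]
    calc ‖l (fderiv ℂ (fun u => G (h u)) v ξ)‖ =
          ‖(l.comp (fderiv ℂ (fun u => G (h u)) v)) ξ‖ := rfl
      _ ≤ ‖l.comp (fderiv ℂ (fun u => G (h u)) v)‖ * ‖ξ‖ := ContinuousLinearMap.le_opNorm _ _
      _ ≤ max A 0 * ‖ξ‖ := by
        gcongr
        exact h4.trans (le_max_left _ _)

end DLocE

end Vale.Agent.P281.H603.TE
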