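import Vale.Agent.P281.H603.TE.Sub

/-!
# P281, project T-E (helper603): lifting maps of `E` through finite coverings
-/

open Set Filter Metric
open scoped Topology

noncomputable section

namespace Vale.Agent.P281.H603.TE

open Vale.Agent.P281.H64.TK Vale.Agent.P281.H603.K

/-! ### Finite coverings and the groups `core Γ m` -/

section lifts
variable {E B F Γ : Type} [TopologicalSpace E] [TopologicalSpace B] [TopologicalSpace F]
  [Group Γ] [MulAction Γ E] {i : F → B} {w : E → B}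

/-- the lifts of `w` through `i` -/
def Lifts (i : F → B) (w : E → B) : Type := {π : C(E, F) // ∀ e, i (π e) = w e}

theorem Lifts.ext' [PreconnectedSpace E] (hi : IsCoveringMap i) {π π' : Lifts i w} {e₀ : E}
    (h : π.1 e₀ = π'.1 e₀) : π = π' := by
  have h1 : (π.1 : E → F) = π'.1 := hi.eq_of_comp_eq π.1.continuous π'.1.continuous
    (by funext e; exact (π.2 e).trans (π'.2 e).symm) e₀ h
  exact Subtype.ext (DFunLike.coe_injective h1)

variable [ContinuousConstSMul Γ E]

/-- `Γ` acts on the lifts -/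
def Lifts.act (hinv : ∀ (γ : Γ) e, w (γ • e) = w e) (γ : Γ) (π : Lifts i w) : Lifts i w :=
  ⟨⟨fun e => π.1 (γ⁻¹ • e), π.1.continuous.comp (continuous_const_smul _)⟩, fun e => by
    show i (π.1 (γ⁻¹ • e)) = w e
    rw [π.2, hinv]⟩

/-- `Γ` acts on the lifts -/
def Lifts.hom (hinv : ∀ (γ : Γ) e, w (γ • e) = w e) : Γ →* Equiv.Perm (Lifts i w) where
  toFun γ :=
    { toFun := Lifts.act hinv γ
      invFun := Lifts.act hinv γ⁻¹
      left_inv := fun π => by
        apply Subtype.ext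
        apply DFunLike.coe_injective
        funext e
        exact congrArg π.1 (by rw [inv_inv, inv_smul_smul])
      right_inv := fun π => by
        apply Subtype.ext
        apply DFunLike.coe_injective
        funext e
        exact congrArg π.1 (by rw [inv_inv, smul_inv_smul]) }
  map_one' := by
    apply Equiv.ext
    intro π
    apply Subtype.ext
    apply DFunLike.coe_injective
    funext e
    exact congrArg π.1 (by rw [inv_one, one_smul])
  map_mul' γ γ' := by
    apply Equiv.ext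
    intro π
    apply Subtype.ext
    apply DFunLike.coe_injective
    funext e
    exact congrArg π.1 (by rw [mul_inv_rev, mul_smul])

/-- **Lifts through a covering of degree `≤ m` are invariant under `core Γ m`** -/
theorem Lifts.inv_core [PreconnectedSpace E] (hi : IsCoveringMap i)
    (hinv : ∀ (γ : Γ) e, w (γ • e) = w e) (e₀ : E) (hfin : (i ⁻¹' {w e₀}).Finite) {m : ℕ}
    (hm : (i ⁻¹' {w e₀}).ncard ≤ m) (π : Lifts i w) {κ : Γ} (hκ : κ ∈ core Γ m) (e : E) :
    π.1 (κ • e) = π.1 e := by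
  have hF : Finite (i ⁻¹' {w e₀}) := hfin
  set ev : Lifts i w → (i ⁻¹' {w e₀}) := fun π => ⟨π.1 e₀, π.2 e₀⟩ with hev
  have hevi : Function.Injective ev := by
    intro π π' h
    exact Lifts.ext' hi (congrArg Subtype.val h)
  have hA : Finite (Lifts i w) := Finite.of_injective ev hevi
  have hc : Nat.card (Lifts i w) ≤ m := by
    refine (Nat.card_le_card_of_injective ev hevi).trans ?_
    exact hm
  have h1 := core_le_ker hc (Lifts.hom (i := i) hinv) ((core Γ m).inv_mem hκ)
  rw [MonoidHom.mem_ker] at h1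
  have h2 : Lifts.act hinv κ⁻¹ π = π := congrArg (fun φ : Equiv.Perm (Lifts i w) => φ π) h1
  have h3 : (Lifts.act hinv κ⁻¹ π).1 e = π.1 e := by rw [h2]
  have h4 : (Lifts.act hinv κ⁻¹ π).1 e = π.1 ((κ⁻¹)⁻¹ • e) := rfl
  rw [inv_inv] at h4
  rw [← h4, h3]

/-- **Lifting** -/
theorem exists_lift [SimplyConnectedSpace E] [LocallyPathConnectedSpace E] (hi : IsCoveringMap i)
    (hw : Continuous w) (hinv : ∀ (γ : Γ) e, w (γ • e) = w e) {e₀ : E} {x₀ : F}
    (h₀ : i x₀ = w e₀) (hfin : (i ⁻¹' {w e₀}).Finite) :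
    ∃ π : E → F, Continuous π ∧ (∀ e, i (π e) = w e) ∧ π e₀ = x₀ ∧
      ∀ m, (i ⁻¹' {w e₀}).ncard ≤ m → ∀ κ ∈ core Γ m, ∀ e, π (κ • e) = π e := by
  obtain ⟨π, ⟨h1, h2⟩, -⟩ := hi.existsUnique_continuousMap_lifts ⟨w, hw⟩ e₀ x₀ h₀
  have h3 : ∀ e, i (π e) = w e := fun e => congrFun h2 e
  exact ⟨π, π.continuous, h3, h1, fun m hm κ hκ e =>
    Lifts.inv_core hi hinv e₀ hfin hm ⟨π, h3⟩ hκ e⟩

end lifts

/-! ### Local homeomorphisms -/

theorem isLocalHomeomorph_of {X Y : Type} [TopologicalSpace X] [TopologicalSpace Y] {f : X → Y}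
    (hf : Continuous f) (hi : ∀ x, ∃ U ∈ 𝓝 x, U.InjOn f) (ho : ∀ x, Filter.map f (𝓝 x) = 𝓝 (f x)) :
    IsLocalHomeomorph f := by
  have hop : IsOpenMap f := isOpenMap_iff_nhds_le.2 fun x => (ho x).ge
  rw [isLocalHomeomorph_iff_isOpenEmbedding_restrict]
  intro x
  obtain ⟨U, hU, hUi⟩ := hi x
  obtain ⟨V, hVU, hVo, hxV⟩ := mem_nhds_iff.1 hU
  refine ⟨V, hVo.mem_nhds hxV, ?_⟩
  refine Topology.IsOpenEmbedding.of_continuous_injective_isOpenMap
    (hf.comp continuous_subtype_val) ?_ ?_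
  · exact injOn_iff_injective.1 (hUi.mono hVU)
  · exact hop.comp hVo.isOpenMap_subtype_val

/-! ### `E` is locally path connected -/

theorem locPath {d : ℕ} {E Γ : Type} [TopologicalSpace E] [Group Γ] [MulAction Γ E]
    [ContinuousConstSMul Γ E] (S : Sheets d E Γ) : LocallyPathConnectedSpace E := by
  constructor
  intro e
  refine ⟨fun s => ⟨fun hs => ?_, ?_⟩⟩
  · obtain ⟨γ, i, z, hz, rfl⟩ := S.cover e
    have hz3 := Sh.mem3 hz
    have h1 : (fun u => γ • S.σ i u) ⁻¹' s ∈ 𝓝 z := by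
      have h2 := hs
      rw [← Sh.map_nhds_smul S γ i hz3] at h2
      exact h2
    obtain ⟨ρ, hρ, hb⟩ := Metric.mem_nhds_iff.1 (inter_mem h1 (isOpen_ball.mem_nhds hz3))
    refine ⟨(fun u => γ • S.σ i u) '' ball z ρ, ⟨?_, ?_⟩, ?_⟩
    · rw [← Sh.map_nhds_smul S γ i hz3]
      exact image_mem_map (ball_mem_nhds z hρ)
    · refine IsPathConnected.image' ?_ ?_
      · exact (convex_ball z ρ).isPathConnected ⟨z, mem_ball_self hρ⟩
      · intro u hu
        have h3 : ContinuousAt (S.σ i) u := Sh.contAt S i (hb hu).2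
        exact ((continuous_const_smul γ).continuousAt.comp h3).continuousWithinAt
    · rintro _ ⟨u, hu, rfl⟩
      exact (hb hu).1
  · rintro ⟨t, ⟨ht, -⟩, hts⟩
    exact mem_of_superset ht hts

end Vale.Agent.P281.H603.TE
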