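import Vale.Agent.P281.H603.TE.Loc

/-!
# P281, project T-E (helper603), block E3: the multi-valued Albanese maps of the local data
-/

open Set Filter Metric MeasureTheory Vale.Agent.P281 Vale.Agent.P281.H713 Vale.Agent.P272.K
open scoped Topology ContDiff Manifold ComplexConjugate

set_option linter.unusedSectionVars false

noncomputable section

namespace Vale.Agent.P281.H603.TE

open Vale.Agent.P281.H64 (Mark Qf Qf_eq bil_eq linV linV_apply)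
open Vale.Agent.P281.H64.TK Vale.Agent.P281.H603.K Vale.Agent.P281.H864.K

attribute [local instance] ccs

theorem fsub_sigma' {p d : ℕ} {E Γ : Type} [TopologicalSpace E] [Group Γ] [MulAction Γ E]
    [ContinuousConstSMul Γ E] (𝓕 : Fam p d E Γ) (K : Subgroup Γ) [K.FiniteIndex]
    (i : Fin 𝓕.N) (c : Γ ⧸ K) (t : Cm p) (z : Cm d) :
    (fsub 𝓕 K).σ ((idx K 𝓕.N).symm (i, c)) t z = rep K c • 𝓕.σ i t z := by
  show rep K (idx K 𝓕.N ((idx K 𝓕.N).symm (i, c))).2 •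
    𝓕.σ (idx K 𝓕.N ((idx K 𝓕.N).symm (i, c))).1 t z = _
  rw [Equiv.apply_symm_apply]

variable {p d : ℕ} {Z Y : Type} [TopologicalSpace Z] [T2Space Z] [ChartedSpace (Cm (p + d)) Z]
  [IsManifold 𝓘(ℂ, Cm (p + d)) ω Z] [TopologicalSpace Y] [T2Space Y] [ChartedSpace (Cm p) Y]
  [IsManifold 𝓘(ℂ, Cm p) ω Y] {f : Z → Y}
  {w : Chart (p + d) Z → Cm (p + d) → Matrix (Fin (p + d)) (Fin (p + d)) ℂ} {m n g : ℕ}
  {B : Matrix (Fin n) (Fin n) ℝ}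

namespace DLocE

variable (L : DLocE (p := p) (d := d) f w m B g)

/-- the open set of `Y` over which `L` describes `f` -/
def U : Set Y := L.χ.source ∩ L.χ ⁻¹' L.T'

theorem isOpen_U : IsOpen L.U := L.χ.isOpen_inter_preimage L.isOpen'

theorem left_inv {y : Y} (hy : y ∈ L.U) : L.χ.symm (L.χ y) = y := L.χ.left_inv hy.1

/-- the surface over `y` -/
abbrev sh {y : Y} (hy : y ∈ L.U) : Sheets d L.E L.Γ := L.𝓕.at (L.χ y) (L.hT' hy.2)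

/-- its covering -/
abbrev shK {y : Y} (hy : y ∈ L.U) : Sheets d L.E (core L.Γ m) := sub (L.sh hy) (core L.Γ m)

theorem exists_pt {x : Z} (hx : f x ∈ L.U) : ∃ e, L.q (L.χ (f x)) e = x :=
  L.model.surj x hx.1 (L.hT' hx.2)

theorem contMDiffAt_χ {y : Y} (hy : y ∈ L.U) : ContMDiffAt 𝓘(ℂ, Cm p) 𝓘(ℂ, Cm p) ω L.χ y :=
  contMDiffAt_of_mem_maximalAtlas (IsManifold.subset_maximalAtlas L.model.atlas) hy.1

theorem q_smul {y : Y} (hy : y ∈ L.U) (γ : L.Γ) (e : L.E) :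
    L.q (L.χ y) (γ • e) = L.q (L.χ y) e :=
  ((L.model.eq _ (L.hT' hy.2) _ _).2 ⟨γ, rfl⟩).symm

/-- `ζ` is a coordinate near `x`, for the sheet `i` -/
def IsCo (x : Z) (i : Fin L.𝓕.N) (ζ : Z → Cm d) : Prop :=
  ContMDiffAt 𝓘(ℂ, Cm (p + d)) 𝓘(ℂ, Cm d) ω ζ x ∧ ζ x ∈ ball (0 : Cm d) 3 ∧
    ∀ᶠ z in 𝓝 x, L.q (L.χ (f z)) (L.𝓕.σ i (L.χ (f z)) (ζ z)) = z

theorem exists_co {x : Z} (hx : f x ∈ L.U) {i : Fin L.𝓕.N} {z : Cm d}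
    (hz : z ∈ ball (0 : Cm d) 3) (hxz : L.q (L.χ (f x)) (L.𝓕.σ i (L.χ (f x)) z) = x) :
    ∃ ζ, L.IsCo x i ζ ∧ ζ x = z := by
  obtain ⟨ζ, h2, h3, h4⟩ := L.model.coord i _ (L.hT' hx.2) z hz
  rw [hxz] at h2 h3 h4
  exact ⟨ζ, ⟨h2, by rw [h3]; exact hz, h4⟩, h3⟩

/-- coordinates near a point -/
theorem chart {x : Z} (hx : f x ∈ L.U) : ∃ (i : Fin L.𝓕.N) (ζ : Z → Cm d), L.IsCo x i ζ := by
  obtain ⟨e, he⟩ := L.exists_pt hx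
  obtain ⟨γ, i, z, hz, hγ⟩ := L.𝓕.cover _ (L.hT' hx.2) e
  have h1 : L.q (L.χ (f x)) (L.𝓕.σ i (L.χ (f x)) z) = x := by
    rw [← L.q_smul hx γ, hγ, he]
  obtain ⟨ζ, h2, -⟩ := L.exists_co hx (Sh.mem3 hz) h1
  exact ⟨i, ζ, h2⟩

theorem eventually_mem {x : Z} (hf : ContMDiff 𝓘(ℂ, Cm (p + d)) 𝓘(ℂ, Cm p) ω f) (hx : f x ∈ L.U) :
    ∀ᶠ x' in 𝓝 x, f x' ∈ L.U :=
  hf.continuous.continuousAt.eventually (L.isOpen_U.mem_nhds hx)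

theorem IsCo.near {x : Z} {i : Fin L.𝓕.N} {ζ : Z → Cm d} (h : L.IsCo x i ζ) :
    ∀ᶠ z in 𝓝 x, L.IsCo z i ζ := by
  obtain ⟨h1, h2, h3⟩ := h
  filter_upwards [(contMDiffAt_iff_contMDiffAt_nhds (by simp)).1 h1,
    h1.continuousAt.eventually (isOpen_ball.mem_nhds h2), eventually_eventually_nhds.2 h3]
    with z a b c
  exact ⟨a, b, c⟩

open Classical in
/-- the periods; the value outside `U` is irrelevant -/
def π (D : (Fin n → ℝ) ≃L[ℝ] EuclideanSpace ℂ (Fin g)) (y : Y) :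
    (Fin n → ℝ) ≃L[ℝ] EuclideanSpace ℂ (Fin g) :=
  if h : ∃ π : (Fin n → ℝ) ≃L[ℝ] EuclideanSpace ℂ (Fin g), ∀ x, π x = perMap L.M (L.c (L.χ y)) x
  then h.choose else D

theorem F2_at (hF2 : F2Stmt) (hd : 0 < d) (hn : n = 2 * g) {t : Cm p} (ht : t ∈ L.T') :
    IsUnit B.det ∧ ∃ π : (Fin n → ℝ) ≃L[ℝ] EuclideanSpace ℂ (Fin g),
      (∀ x, π x = perMap L.M (L.c t) x) ∧
      ∃ G : EuclideanSpace ℂ (Fin g) ≃L[ℂ] EuclideanSpace ℂ (Fin g), ∀ x x',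
        (inner ℂ (G (π x)) (G (π x'))).im = Qf B x x' :=
  hF2.1 d L.E (core L.Γ m) (sub (L.𝓕.at t (L.hT' ht)) (core L.Γ m)) (fW (core L.Γ m) L.W t) n g
    L.M B (L.F t) (L.c t) hd (kah_fW _ L.kfam (L.hT' ht)) hn (L.form t (L.hT' ht)) (L.bas t ht)

variable {L}

theorem π_spec (hF2 : F2Stmt) (hd : 0 < d) (hn : n = 2 * g)
    (D : (Fin n → ℝ) ≃L[ℝ] EuclideanSpace ℂ (Fin g))
    {y : Y} (hy : y ∈ L.U) (x : Fin n → ℝ) : L.π D y x = perMap L.M (L.c (L.χ y)) x := by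
  have h : ∃ π : (Fin n → ℝ) ≃L[ℝ] EuclideanSpace ℂ (Fin g), ∀ x,
      π x = perMap L.M (L.c (L.χ y)) x := by
    obtain ⟨-, π, h, -⟩ := L.F2_at hF2 hd hn hy.2
    exact ⟨π, h⟩
  rw [π, dif_pos h]
  exact h.choose_spec x

theorem π_eq (hF2 : F2Stmt) (hd : 0 < d) (hn : n = 2 * g)
    (D : (Fin n → ℝ) ≃L[ℝ] EuclideanSpace ℂ (Fin g))
    {y : Y} (hy : y ∈ L.U) {π' : (Fin n → ℝ) ≃L[ℝ] EuclideanSpace ℂ (Fin g)}
    (h : ∀ x, π' x = perMap L.M (L.c (L.χ y)) x) : L.π D y = π' := by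
  ext1
  funext x
  rw [π_spec hF2 hd hn D hy, h]

theorem polarized (hF2 : F2Stmt) (hd : 0 < d) (hn : n = 2 * g)
    (D : (Fin n → ℝ) ≃L[ℝ] EuclideanSpace ℂ (Fin g)) {y : Y} (hy : y ∈ L.U) :
    IsPolarized (Qf B) (L.π D y) := by
  obtain ⟨-, π', h, h'⟩ := L.F2_at hF2 hd hn hy.2
  rw [π_eq hF2 hd hn D hy h]
  exact h'

theorem hol_π (hF2 : F2Stmt) (hd : 0 < d) (hn : n = 2 * g)
    (D : (Fin n → ℝ) ≃L[ℝ] EuclideanSpace ℂ (Fin g)) (x : Fin n → ℝ) {y : Y} (hy : y ∈ L.U) :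
    ContMDiffAt 𝓘(ℂ, Cm p) 𝓘(ℂ, EuclideanSpace ℂ (Fin g)) ω (fun y => L.π D y x) y := by
  have h1 : (fun y => L.π D y x) =ᶠ[𝓝 y] fun y => perMap L.M (L.c (L.χ y)) x := by
    filter_upwards [L.isOpen_U.mem_nhds hy] with y' hy'
    exact π_spec hF2 hd hn D hy' x
  refine ContMDiffAt.congr_of_eventuallyEq ?_ h1
  have h2 : ContDiffAt ℂ ω (fun t => perMap L.M (L.c t) x) (L.χ y) := by
    have h3 : ContDiffAt ℂ ω (fun t : Cm p => (fun j : Fin g => ∑ k, (x k : ℂ) * L.c t (L.M.g k) j))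
        (L.χ y) := by
      rw [contDiffAt_pi]
      intro j
      refine ContDiffAt.sum fun k _ => ?_
      exact contDiffAt_const.mul (L.holc _ j _ hy.2).contDiffAt
    exact (PiLp.continuousLinearEquiv 2 ℂ (fun _ : Fin g => ℂ)).symm.contDiff.contDiffAt.comp _ h3
  exact h2.contMDiffAt.comp y (L.contMDiffAt_χ hy)

/-- a fibre coordinate -/
theorem coord (hf : ContMDiff 𝓘(ℂ, Cm (p + d)) 𝓘(ℂ, Cm p) ω f) {x : Z} (hx : f x ∈ L.U) :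
    ∃ ζ : Z → Cm d, IsFibreCoord (Cm (p + d)) (Cm p) f ζ x := by
  obtain ⟨i, ζ, h2, h3, h4⟩ := L.chart hx
  refine ⟨ζ, h2, fun ξ hξ hξ' => ?_⟩
  -- `Φ (χ (f x'), ζ x') = x'`
  set Φ : Cm p × Cm d → Z := fun r => L.q r.1 (L.𝓕.σ i r.1 r.2) with hΦ
  have hΦd : MDifferentiableAt 𝓘(ℂ, Cm p × Cm d) 𝓘(ℂ, Cm (p + d)) Φ (L.χ (f x), ζ x) :=
    (L.model.hol i _ (L.hT' hx.2) _ h3).mdifferentiableAt (by simp)
  have h7 : MDifferentiableAt 𝓘(ℂ, Cm (p + d)) 𝓘(ℂ, Cm p) (fun x' => L.χ (f x')) x :=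
    (ContMDiffAt.comp x (g := L.χ) (f := f) (L.contMDiffAt_χ hx) (hf x)).mdifferentiableAt
      (by simp)
  have h7' : MDifferentiableAt 𝓘(ℂ, Cm (p + d)) 𝓘(ℂ, Cm d) ζ x := h2.mdifferentiableAt (by simp)
  have h8 : mfderiv 𝓘(ℂ, Cm (p + d)) 𝓘(ℂ, Cm p) (fun x' => L.χ (f x')) x ξ = 0 := by
    have h9 := mfderiv_comp_apply x (g := L.χ) (f := f)
      ((L.contMDiffAt_χ hx).mdifferentiableAt (by simp)) ((hf x).mdifferentiableAt (by simp)) ξ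
    have h10 : (L.χ : Y → Cm p) ∘ f = fun x' => L.χ (f x') := rfl
    rw [h10] at h9
    rw [h9, hξ]
    exact map_zero _
  have hP : MDifferentiableAt 𝓘(ℂ, Cm (p + d)) 𝓘(ℂ, Cm p × Cm d) (fun x' => (L.χ (f x'), ζ x')) x := by
    rw [modelWithCornersSelf_prod, ← chartedSpaceSelf_prod]
    exact h7.prodMk h7'
  have hP0 : mfderiv 𝓘(ℂ, Cm (p + d)) 𝓘(ℂ, Cm p × Cm d) (fun x' => (L.χ (f x'), ζ x')) x ξ = 0 := by
    have h11 : mfderiv 𝓘(ℂ, Cm (p + d)) (𝓘(ℂ, Cm p).prod 𝓘(ℂ, Cm d)) (fun x' => (L.χ (f x'), ζ x')) x =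
      (mfderiv 𝓘(ℂ, Cm (p + d)) 𝓘(ℂ, Cm p) (fun x' => L.χ (f x')) x).prod
        (mfderiv 𝓘(ℂ, Cm (p + d)) 𝓘(ℂ, Cm d) ζ x) := mfderiv_prodMk h7 h7'
    have h12 : mfderiv 𝓘(ℂ, Cm (p + d)) 𝓘(ℂ, Cm p × Cm d) (fun x' => (L.χ (f x'), ζ x')) x =
        (mfderiv 𝓘(ℂ, Cm (p + d)) 𝓘(ℂ, Cm p) (fun x' => L.χ (f x')) x).prod
        (mfderiv 𝓘(ℂ, Cm (p + d)) 𝓘(ℂ, Cm d) ζ x) := by
      rw [← h11, modelWithCornersSelf_prod, ← chartedSpaceSelf_prod]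
    rw [h12]
    have h13 : mfderiv 𝓘(ℂ, Cm (p + d)) 𝓘(ℂ, Cm d) ζ x ξ = 0 := hξ'
    exact Prod.ext h8 h13
  have h14 := mfderiv_comp_apply x (g := Φ) (f := fun x' => (L.χ (f x'), ζ x')) hΦd hP ξ
  rw [hP0] at h14
  have h15 : (Φ ∘ fun x' => (L.χ (f x'), ζ x')) =ᶠ[𝓝 x] id := by
    filter_upwards [h4] with x' a
    exact a
  rw [h15.mfderiv_eq, mfderiv_id] at h14
  exact h14.trans (map_zero _)

/-! ### The lifts -/

/-- the basis on all the translates of the sheets -/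
theorem holF' (γ : L.Γ) (i : Fin L.𝓕.N) {t : Cm p} (ht : t ∈ L.T') {z : Cm d}
    (hz : z ∈ ball (0 : Cm d) 3) (j : Fin g) :
    AnalyticAt ℂ (fun q : Cm p × Cm d => L.F q.1 (γ • L.𝓕.σ i q.1 q.2) j) (t, z) := by
  obtain ⟨κ, c, rfl⟩ := exists_rep (core L.Γ m) γ
  have h1 := L.holF ((idx (core L.Γ m) L.𝓕.N).symm (i, c)) t ht z hz j
  simp only [fsub_sigma'] at h1
  have h2 : AnalyticAt ℂ (fun q : Cm p × Cm d => L.c q.1 κ j) (t, z) :=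
    AnalyticAt.fun_comp (g := fun s : Cm p => L.c s κ j) (f := fun q : Cm p × Cm d => q.1)
      (L.holc κ j t ht) analyticAt_fst
  refine (h1.fun_add h2).congr ?_
  have h3 : ∀ᶠ q : Cm p × Cm d in 𝓝 (t, z), q.1 ∈ L.T' :=
    continuous_fst.continuousAt.eventually (L.isOpen'.mem_nhds ht)
  filter_upwards [h3] with q hq
  rw [mul_smul]
  exact (((L.bas _ hq).add j).add κ _).symm

variable (L)

/-- `β` is one of the lifts near `x` of the multi-valued Albanese map -/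
def IsLift (x : Z) (β : Z → EuclideanSpace ℂ (Fin g)) : Prop :=
  f x ∈ L.U ∧ ∃ (γ : L.Γ) (i : Fin L.𝓕.N) (ζ : Z → Cm d), L.IsCo x i ζ ∧
    ∀ᶠ z in 𝓝 x, β z = WithLp.toLp 2 (L.F (L.χ (f z)) (γ • L.𝓕.σ i (L.χ (f z)) (ζ z)))

variable {L}

theorem exists_lift' {x : Z} (hx : f x ∈ L.U) (γ : L.Γ) {i : Fin L.𝓕.N} {ζ : Z → Cm d}
    (h : L.IsCo x i ζ) : L.IsLift x fun z =>
      WithLp.toLp 2 (L.F (L.χ (f z)) (γ • L.𝓕.σ i (L.χ (f z)) (ζ z))) :=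
  ⟨hx, γ, i, ζ, h, Eventually.of_forall fun _ => rfl⟩

theorem exists_isLift {x : Z} (hx : f x ∈ L.U) : ∃ β, L.IsLift x β := by
  obtain ⟨i, ζ, h⟩ := L.chart hx
  exact ⟨_, exists_lift' hx 1 h⟩

theorem IsLift.near (hf : ContMDiff 𝓘(ℂ, Cm (p + d)) 𝓘(ℂ, Cm p) ω f) {x : Z}
    {β : Z → EuclideanSpace ℂ (Fin g)} (h : L.IsLift x β) : ∀ᶠ z in 𝓝 x, L.IsLift z β := by
  obtain ⟨h1, γ, i, ζ, h2, h3⟩ := h
  filter_upwards [L.eventually_mem hf h1, IsCo.near L h2, eventually_eventually_nhds.2 h3]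
    with z a b c
  exact ⟨a, γ, i, ζ, b, c⟩

theorem IsLift.hol (hf : ContMDiff 𝓘(ℂ, Cm (p + d)) 𝓘(ℂ, Cm p) ω f) {x : Z}
    {β : Z → EuclideanSpace ℂ (Fin g)} (h : L.IsLift x β) :
    ContMDiffAt 𝓘(ℂ, Cm (p + d)) 𝓘(ℂ, EuclideanSpace ℂ (Fin g)) ω β x := by
  obtain ⟨hx, γ, i, ζ, ⟨h3, h4, -⟩, h5⟩ := h
  refine ContMDiffAt.congr_of_eventuallyEq ?_ h5
  have h5 : ContDiffAt ℂ ω (fun r : Cm p × Cm d =>
      (WithLp.toLp 2 (L.F r.1 (γ • L.𝓕.σ i r.1 r.2)) : EuclideanSpace ℂ (Fin g)))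
      (L.χ (f x), ζ x) := by
    have h6 : ContDiffAt ℂ ω (fun r : Cm p × Cm d => L.F r.1 (γ • L.𝓕.σ i r.1 r.2))
        (L.χ (f x), ζ x) := by
      rw [contDiffAt_pi]
      intro j
      exact (holF' γ i hx.2 h4 j).contDiffAt
    exact (PiLp.continuousLinearEquiv 2 ℂ (fun _ : Fin g => ℂ)).symm.contDiff.contDiffAt.comp _ h6
  have h7 : ContMDiffAt 𝓘(ℂ, Cm (p + d)) 𝓘(ℂ, Cm p) ω (fun x' => L.χ (f x')) x :=
    ContMDiffAt.comp x (g := L.χ) (f := f) (L.contMDiffAt_χ hx) (hf x)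
  have h8 : ContMDiffAt 𝓘(ℂ, Cm (p + d)) 𝓘(ℂ, Cm p × Cm d) ω (fun x' => (L.χ (f x'), ζ x')) x := by
    rw [modelWithCornersSelf_prod, ← chartedSpaceSelf_prod]
    exact h7.prodMk h3
  exact ContMDiffAt.comp x (g := fun r : Cm p × Cm d =>
    (WithLp.toLp 2 (L.F r.1 (γ • L.𝓕.σ i r.1 r.2)) : EuclideanSpace ℂ (Fin g)))
    (f := fun x' => (L.χ (f x'), ζ x')) h5.contMDiffAt h8

/-- `F` along the translates of a sheet -/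
theorem analyticAt_slice {y : Y} (hy : y ∈ L.U) (γ : L.Γ) (i : Fin L.𝓕.N) {z : Cm d}
    (hz : z ∈ ball (0 : Cm d) 3) (j : Fin g) :
    AnalyticAt ℂ (fun v => L.F (L.χ y) (γ • L.𝓕.σ i (L.χ y) v) j) z := by
  have h1 := holF' (L := L) γ i hy.2 hz j
  exact AnalyticAt.fun_comp (g := fun q : Cm p × Cm d => L.F q.1 (γ • L.𝓕.σ i q.1 q.2) j)
    (f := fun v : Cm d => (L.χ y, v)) h1 (by fun_prop)

theorem differentiableAt_slice {y : Y} (hy : y ∈ L.U) (γ : L.Γ) (i : Fin L.𝓕.N) {z : Cm d}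
    (hz : z ∈ ball (0 : Cm d) 3) :
    DifferentiableAt ℂ (fun v => (WithLp.toLp 2 (L.F (L.χ y) (γ • L.𝓕.σ i (L.χ y) v)) :
      EuclideanSpace ℂ (Fin g))) z :=
  (PiLp.continuousLinearEquiv 2 ℂ (fun _ : Fin g => ℂ)).symm.differentiableAt.comp z
    (differentiableAt_pi.2 fun j => (analyticAt_slice hy γ i hz j).differentiableAt)

/-- two points of `E` over a point of the fibre, in the same sheet -/
theorem eq_of_q {y : Y} (hy : y ∈ L.U) {γ : L.Γ} {i : Fin L.𝓕.N} {u v : Cm d}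
    (hu : u ∈ ball (0 : Cm d) 3) (hv : v ∈ ball (0 : Cm d) 3)
    (h : L.q (L.χ y) (γ • L.𝓕.σ i (L.χ y) u) = L.q (L.χ y) (L.𝓕.σ i (L.χ y) v)) : u = v := by
  rw [L.q_smul hy] at h
  obtain ⟨δ, hδ⟩ := (L.model.eq _ (L.hT' hy.2) _ _).1 h
  exact (L.𝓕.inj i _ (L.hT' hy.2) u hu v hv δ hδ).2

end DLocE

end Vale.Agent.P281.H603.TE
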