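import Vale.Agent.P281.H603.TE.AlbA

/-!
# P281, project T-E (helper603), block E3: nondegeneracy
-/

open Set Filter Metric MeasureTheory Vale.Agent.P281 Vale.Agent.P281.H713 Vale.Agent.P272.K
open scoped Topology ContDiff Manifold ComplexConjugate

set_option linter.unusedSectionVars false

noncomputable section

namespace Vale.Agent.P281.H603.TE

open Vale.Agent.P281.H64 (Mark Qf Qf_eq bil_eq linV linV_apply functional_eq)
open Vale.Agent.P281.H64.TK Vale.Agent.P281.H603.K Vale.Agent.P281.H864.K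
open Vale.Agent.P281.H64.TK.TE (NDegE)

attribute [local instance] ccs

/-- additive functions in terms of a basis -/
theorem exists_lin {d : ℕ} {E Γ : Type} [TopologicalSpace E] [SimplyConnectedSpace E]
    [Group Γ] [MulAction Γ E] {S : Sheets d E Γ} {g : ℕ}
    {F : E → Fin g → ℂ} {c : Γ → Fin g → ℂ} (hb : IsBas S F c)
    (hC2 : ∀ (h : E → ℂ) (c : Γ → ℂ), Add S h c → (∀ γ, (c γ).re = 0) → ∀ e e', h e = h e')
    {h : E → ℂ} {b : Γ → ℂ} (H : Add S h b) :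
    ∃ (s : Fin g → ℂ) (b' : ℂ), ∀ e, h e = ∑ j, s j * F e j + b' := by
  obtain ⟨s, hs⟩ := hb.span _ _ H
  obtain ⟨e₀⟩ : Nonempty E := inferInstance
  refine ⟨s, h e₀ - ∑ j, s j * F e₀ j, fun e => ?_⟩
  have h1 := Add.sum hb.add s
  have h2 : Add S h (fun γ => ∑ j, s j * c γ j) := by
    have h3 : b = fun γ => ∑ j, s j * c γ j := funext fun γ => hs γ
    rwa [h3] at H
  have h4 := h2.diff_const hC2 h1 e e₀
  linear_combination h4

/-- determinants of functionals -/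
theorem det_fnl {d : ℕ} {V : Type} [NormedAddCommGroup V] [InnerProductSpace ℂ V]
    [FiniteDimensional ℂ V] {H : Cm d → V} {z : Cm d} (hH : DifferentiableAt ℂ H z)
    (l : Fin d → (V →L[ℂ] ℂ)) (b : Fin d → ℂ) {u : Fin d → Cm d → ℂ}
    (hu : ∀ a v, u a v = l a (H v) + b a) :
    (Matrix.of fun a k => dd k (u a) z).det = minor l H z := by
  rw [minor]
  congr 1
  ext a k
  simp only [Matrix.of_apply]
  have h1 : u a = fun v => l a (H v) + b a := funext fun v => hu a v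
  rw [dd, h1, fderiv_add_const]
  have h3 : fderiv ℂ (fun v => l a (H v)) z = (l a).comp (fderiv ℂ H z) :=
    ((l a).hasFDerivAt.comp z hH.hasFDerivAt).fderiv
  rw [h3]
  rfl

variable {p d : ℕ} {Z Y : Type} [TopologicalSpace Z] [T2Space Z] [ChartedSpace (Cm (p + d)) Z]
  [IsManifold 𝓘(ℂ, Cm (p + d)) ω Z] [TopologicalSpace Y] [T2Space Y] [ChartedSpace (Cm p) Y]
  [IsManifold 𝓘(ℂ, Cm p) ω Y] {f : Z → Y}
  {w : Chart (p + d) Z → Cm (p + d) → Matrix (Fin (p + d)) (Fin (p + d)) ℂ} {m n g : ℕ}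
  {B : Matrix (Fin n) (Fin n) ℝ}

namespace DLocE

variable (L : DLocE (p := p) (d := d) f w m B g)

/-- nondegeneracy of the fibre, in any local datum -/
theorem gaussE (I : Inputs) (hd : 0 < d) (hf : ContMDiff 𝓘(ℂ, Cm (p + d)) 𝓘(ℂ, Cm p) ω f)
    (hw : IsKahler w) {y : Y} (hy : y ∈ L.U) {r : ℕ}
    (hN : NDegE (p + d) p d m r f y) :
    ∃ (j : Fin (L.shK hy).N) (z : Cm d), ‖z‖ < 1 ∧ (L.shK hy).GaussAt r j z := by
  obtain ⟨E₁, Γ₁, _, _, _, _, _, _, 𝓕₁, q₁, χ₁, t₁, ht₁, hfin, hM₁, hy₁, i, z, hz, hG⟩ := hN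
  obtain ⟨W₁, hW₁, hK₁⟩ := I.w p d Z Y f w E₁ Γ₁ 𝓕₁ q₁ χ₁ hf hM₁ hw
  obtain ⟨τ, ρ, -, -, hc⟩ := compareE I hd hf hw hM₁ L.model hW₁ L.pull ht₁ (L.hT' hy.2)
    (by rw [hy₁, L.left_inv hy]) m
  obtain ⟨j, v, hv, hG'⟩ := GaussAt.compat hc.hol hz hG
  exact ⟨j, v, hv, GaussAt.of_pull hG'⟩

variable {L}

/-- a lift along a slice -/
theorem IsLift.slice {y : Y} (hy : y ∈ L.U) {i₀ : Fin L.𝓕.N} {z : Cm d}
    (hz : z ∈ ball (0 : Cm d) 3) {β : Z → EuclideanSpace ℂ (Fin g)}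
    (h : L.IsLift (L.q (L.χ y) (L.𝓕.σ i₀ (L.χ y) z)) β) :
    ∃ γ₁ : L.Γ, ∀ᶠ v in 𝓝 z, β (L.q (L.χ y) (L.𝓕.σ i₀ (L.χ y) v)) =
      WithLp.toLp 2 (L.F (L.χ y) (γ₁ • L.𝓕.σ i₀ (L.χ y) v)) := by
  obtain ⟨-, γ, i, ζ, ⟨h1, h2, h3⟩, h4⟩ := h
  have ht := L.hT' hy.2
  have hfc : ∀ u, f (L.q (L.χ y) (L.𝓕.σ i₀ (L.χ y) u)) = y := fun u => by
    rw [L.model.fib _ ht, L.left_inv hy]
  set Q : Cm d → Z := fun v => L.q (L.χ y) (L.𝓕.σ i₀ (L.χ y) v) with hQ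
  have hQc : ContinuousAt Q z := (contMDiffAt_slice (L.model.hol i₀ _ ht z hz)).continuousAt
  -- the element `δ`
  have h5 := h3.self_of_nhds
  rw [hfc] at h5
  obtain ⟨δ, hδ⟩ := (L.model.eq _ ht _ _).1 h5.symm
  have h6 : L.𝓕.σ i₀ (L.χ y) z = δ⁻¹ • L.𝓕.σ i (L.χ y) (ζ (Q z)) := by
    rw [← hδ, inv_smul_smul]
  obtain ⟨θ, k1, k2, k3⟩ := (L.sh hy).hol i₀ i z hz _ h2 δ⁻¹ h6
  have e1 : ∀ᶠ v in 𝓝 z, θ v ∈ ball (0 : Cm d) 3 := k1.continuousAt.eventually (by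
    show ∀ᶠ u in 𝓝 (θ z), u ∈ ball (0 : Cm d) 3
    rw [k2]
    exact isOpen_ball.mem_nhds h2)
  have e2 : ∀ᶠ v in 𝓝 z, ζ (Q v) ∈ ball (0 : Cm d) 3 :=
    hQc.eventually (h1.continuousAt.eventually (isOpen_ball.mem_nhds h2))
  refine ⟨γ * δ, ?_⟩
  filter_upwards [hQc.eventually h3, hQc.eventually h4, e1, e2, k3] with v a1 a2 a3 a4 a5
  have hfv : f (Q v) = y := hfc v
  rw [hfv] at a1 a2
  have a5' : L.𝓕.σ i₀ (L.χ y) v = δ⁻¹ • L.𝓕.σ i (L.χ y) (θ v) := a5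
  have a6 : θ v = ζ (Q v) := by
    refine eq_of_q hy (γ := δ⁻¹) (i := i) a3 a4 ?_
    rw [← a5', a1]
  show β (Q v) = _
  rw [a2, ← a6, a5', mul_smul, smul_inv_smul]

/-- **nondegeneracy** -/
theorem nondegE (I : Inputs) (hd : 0 < d) (hf : ContMDiff 𝓘(ℂ, Cm (p + d)) 𝓘(ℂ, Cm p) ω f)
    (hw : IsKahler w) {y : Y} (hy : y ∈ L.U) {r : ℕ}
    (hN : NDegE (p + d) p d m r f y) (hN' : ¬ NDegE (p + d) p d m (r + 1) f y) :
    ∃ (q : (Fin d → ℂ) → Z) (v₀ : Fin d → ℂ),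
      ContMDiffAt 𝓘(ℂ, Fin d → ℂ) 𝓘(ℂ, Cm (p + d)) ω q v₀ ∧ (∀ᶠ v in 𝓝 v₀, f (q v) = y) ∧
      ∀ β : Z → EuclideanSpace ℂ (Fin g), L.IsLift (q v₀) β →
        H64.TU.IsNondegR r (fun v => β (q v)) v₀ := by
  obtain ⟨j, z, hz, hG⟩ := L.gaussE I hd hf hw hy hN
  have hz3 : z ∈ ball (0 : Cm d) 3 := Sh.mem3 hz
  have ht := L.hT' hy.2
  have hC2 := (I.c2 d L.E (core L.Γ m) (L.shK hy) _ hd (kah_fW _ L.kfam ht)).2
  obtain ⟨hG, hGa, hG0, hGs⟩ := hG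
  have hbas := L.bas _ hy.2
  set i₀ : Fin L.𝓕.N := (idx (core L.Γ m) L.𝓕.N j).1 with hi₀
  set c₀ := (idx (core L.Γ m) L.𝓕.N j).2 with hc₀
  refine ⟨fun v => L.q (L.χ y) (L.𝓕.σ i₀ (L.χ y) v), z,
    contMDiffAt_slice (L.model.hol i₀ _ ht z hz3),
    Eventually.of_forall fun v => by rw [L.model.fib _ ht, L.left_inv hy], ?_⟩
  intro β hβ
  obtain ⟨γ₁, hγ₁⟩ := IsLift.slice hy hz3 hβ
  set h : Cm d → EuclideanSpace ℂ (Fin g) :=
    fun v => β (L.q (L.χ y) (L.𝓕.σ i₀ (L.χ y) v)) with hh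
  set H : Cm d → EuclideanSpace ℂ (Fin g) :=
    fun v => WithLp.toLp 2 (L.F (L.χ y) (γ₁ • L.𝓕.σ i₀ (L.χ y) v)) with hH
  have hHd : ∀ v ∈ ball (0 : Cm d) 3, DifferentiableAt ℂ H v := fun v hv =>
    differentiableAt_slice hy γ₁ i₀ hv
  have hev : ∀ᶠ v in 𝓝 z, h =ᶠ[𝓝 v] H := eventually_eventually_nhds.2 hγ₁
  -- the translates, in terms of the basis
  have hlin : ∀ k, ∃ (s : Fin d → Fin g → ℂ) (b : Cm d), ∀ e a,
      hG k ((rep (core L.Γ m) c₀ * γ₁⁻¹) • e) a = ∑ j, s a j * L.F (L.χ y) e j + b a := by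
    intro k
    choose b hb using hGa k
    choose s b' hs using fun a => exists_lin hbas hC2
      (add_translate (L.sh hy) (core L.Γ m) (hb a) (rep (core L.Γ m) c₀ * γ₁⁻¹))
    exact ⟨s, b', fun e a => hs a e⟩
  choose s b hsb using hlin
  have hmin : ∀ k, ∀ᶠ v in 𝓝 z, minor (fun a => fnl (s k a)) h v =
      (L.shK hy).minor (hG k) j v := by
    intro k
    filter_upwards [hev, isOpen_ball.mem_nhds hz3] with v h1 h2
    rw [minor_congr (fun a => fnl (s k a)) h1.fderiv_eq]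
    refine (det_fnl (hHd v h2) _ (b k) (u := fun a u =>
      hG k (rep (core L.Γ m) c₀ • L.𝓕.σ i₀ (L.χ y) u) a) fun a u => ?_).symm
    have h3 := hsb k (γ₁ • L.𝓕.σ i₀ (L.χ y) u) a
    rw [mul_smul, inv_smul_smul] at h3
    rw [h3, fnl_apply]
  refine ⟨⟨fun k a => fnl (s k a), ?_, ?_⟩, ?_, fun l hl => ?_⟩
  · rw [(hmin 0).self_of_nhds]
    exact hG0
  · intro v
    obtain ⟨ξ, hξ⟩ := hGs v
    refine ⟨ξ, ?_⟩
    rw [← hξ]
    funext k
    have h1 : (fun u => minor (fun a => fnl (s k.succ a)) h u / minor (fun a => fnl (s 0 a)) h u)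
        =ᶠ[𝓝 z] fun u => (L.shK hy).minor (hG k.succ) j u / (L.shK hy).minor (hG 0) j u := by
      filter_upwards [hmin 0, hmin k.succ] with u a1 a2
      rw [a1, a2]
    simp only
    rw [h1.fderiv_eq]
  · -- the rank is at most `r`
    obtain ⟨κ₁, c₁, hκ₁⟩ := exists_rep (core L.Γ m) γ₁
    filter_upwards [eventually_eventually_nhds.2 hev, isOpen_ball.mem_nhds hz3] with v hv hv3 l hl
    apply hN'
    obtain ⟨hl0, hls⟩ := hl
    set s' : Fin (r + 1 + 1) → Fin d → Fin g → ℂ :=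
      fun k a j => l k a (WithLp.toLp 2 (Pi.single j 1)) with hs'
    set h' : Fin (r + 1 + 1) → L.E → Cm d := fun k e a => ∑ j, s' k a j * L.F (L.χ y) e j with hh'
    have hll : ∀ k, (fun a => fnl (s' k a)) = l k := fun k => funext fun a => fnl_of (l k a)
    set j₁ := six (L.sh hy) (core L.Γ m) i₀ c₁ with hj₁
    have hmin' : ∀ k, ∀ᶠ u in 𝓝 v, minor (l k) h u = (L.shK hy).minor (h' k) j₁ u := by
      intro k
      filter_upwards [hv, isOpen_ball.mem_nhds hv3] with u h1 h2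
      rw [minor_congr (l k) h1.fderiv_eq]
      have h3 : (L.shK hy).minor (h' k) j₁ u =
          (Matrix.of fun a k' => dd k' (fun z => h' k ((L.shK hy).σ j₁ z) a) u).det := rfl
      rw [h3]
      refine (det_fnl (hHd u h2) (l k) (fun a => -∑ j, s' k a j * L.c (L.χ y) κ₁ j)
        (u := fun a z => h' k ((L.shK hy).σ j₁ z) a) fun a v => ?_).symm
      have h4 : (L.shK hy).σ j₁ v = rep (core L.Γ m) c₁ • L.𝓕.σ i₀ (L.χ y) v :=
        sub_sigma' (L.sh hy) (core L.Γ m) i₀ c₁ v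
      rw [h4, ← hll k, fnl_apply, hh']
      simp only
      rw [← sub_eq_add_neg, ← Finset.sum_sub_distrib]
      refine Finset.sum_congr rfl fun j _ => ?_
      have h5 : L.F (L.χ y) (γ₁ • L.𝓕.σ i₀ (L.χ y) v) j =
          L.F (L.χ y) (rep (core L.Γ m) c₁ • L.𝓕.σ i₀ (L.χ y) v) j + L.c (L.χ y) κ₁ j := by
        rw [hκ₁, mul_smul]
        exact (hbas.add j).add κ₁ _
      rw [h5]
      ring
    refine ⟨L.E, L.Γ, inferInstance, inferInstance, inferInstance, inferInstance, inferInstance,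
      inferInstance, L.𝓕, L.q, L.χ, L.χ y, ht, L.fin, L.model, L.left_inv hy, j₁, v, hv3, h',
      ?_, ?_, ?_⟩
    · exact fun k a => ⟨_, Add.sum hbas.add (s' k a)⟩
    · have h1 := (hmin' 0).self_of_nhds
      rw [h1] at hl0
      exact hl0
    · intro u
      obtain ⟨ξ, hξ⟩ := hls u
      refine ⟨ξ, ?_⟩
      rw [← hξ]
      funext k
      have h1 : (fun u => minor (l k.succ) h u / minor (l 0) h u)
          =ᶠ[𝓝 v] fun u => (L.shK hy).minor (h' k.succ) j₁ u / (L.shK hy).minor (h' 0) j₁ u := by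
        filter_upwards [hmin' 0, hmin' k.succ] with u a1 a2
        rw [a1, a2]
      simp only
      rw [h1.fderiv_eq]
  · -- no hyperplane
    set s' : Fin g → ℂ := fun j => l (WithLp.toLp 2 (Pi.single j 1)) with hs'
    have hadd := Add.sum hbas.add s'
    have hev' : ∀ᶠ e in 𝓝 (γ₁ • L.𝓕.σ i₀ (L.χ y) z), ∑ j, s' j * L.F (L.χ y) e j =
        ∑ j, s' j * L.F (L.χ y) (γ₁ • L.𝓕.σ i₀ (L.χ y) z) j := by
      have h0 := Sh.map_nhds_smul (L.sh hy) γ₁ i₀ hz3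
      have h0' : Filter.map (fun v => γ₁ • L.𝓕.σ i₀ (L.χ y) v) (𝓝 z) =
        𝓝 (γ₁ • L.𝓕.σ i₀ (L.χ y) z) := h0
      rw [← h0', eventually_map]
      filter_upwards [hγ₁, hl] with u h1 h2
      have h3 : l (H u) = l (H z) := by
        have h4 : h u = H u := h1
        have h5 : h z = H z := hγ₁.self_of_nhds
        rw [← h4, ← h5]
        exact h2
      have h6 := functional_eq l (L.F (L.χ y) (γ₁ • L.𝓕.σ i₀ (L.χ y) u))
      have h7 := functional_eq l (L.F (L.χ y) (γ₁ • L.𝓕.σ i₀ (L.χ y) z))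
      rw [← h6, ← h7]
      exact h3
    have hconst' : ∀ e, ∑ j, s' j * L.F (L.χ y) e j =
        ∑ j, s' j * L.F (L.χ y) (γ₁ • L.𝓕.σ i₀ (L.χ y) z) j := fun e =>
      const_of_eventually hadd hev' e
    have hper := hadd.per_zero (fun e e' => by rw [hconst' e, hconst' e'])
    have hs0 := hbas.indep s' hper
    ext v
    have h8 := functional_eq l ((WithLp.equiv 2 _) v)
    have h9 : (WithLp.toLp 2 ((WithLp.equiv 2 _) v) : EuclideanSpace ℂ (Fin g)) = v := rfl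
    rw [h9] at h8
    rw [h8]
    have h10 : ∀ j, l (WithLp.toLp 2 (Pi.single j 1)) = 0 := fun j => congrFun hs0 j
    rw [zero_apply]
    exact Finset.sum_eq_zero fun j _ => by rw [h10, zero_mul]

end DLocE

end Vale.Agent.P281.H603.TE
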