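import Vale.Agent.P281.H603.K.Base

/-!
# P281, project T-E (helper603): finite étale covers `E / K → E / Γ`
-/

open Set Filter Metric MeasureTheory Vale.Agent.P272.K
open scoped Topology ContDiff ComplexConjugate ComplexOrder

set_option linter.unusedSectionVars false

noncomputable section

namespace Vale.Agent.P281.H603.TE

open Vale.Agent.P281.H64.TK Vale.Agent.P281.H603.K

variable {p d : ℕ} {E Γ : Type} [TopologicalSpace E] [Group Γ] [MulAction Γ E]

/-! ### Representatives of the cosets -/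

section coset
variable (K : Subgroup Γ)

/-- the representative of a right coset of `K` -/
def rep (c : Γ ⧸ K) : Γ := (c.out)⁻¹

theorem exists_rep (γ : Γ) : ∃ (κ : K) (c : Γ ⧸ K), γ = κ * rep K c := by
  refine ⟨⟨γ * ((γ⁻¹ : Γ) : Γ ⧸ K).out, ?_⟩, ((γ⁻¹ : Γ) : Γ ⧸ K), ?_⟩
  · have h1 : (((((γ⁻¹ : Γ) : Γ ⧸ K).out : Γ) : Γ ⧸ K)) = ((γ⁻¹ : Γ) : Γ ⧸ K) :=
      QuotientGroup.out_eq' _
    have h2 := QuotientGroup.eq.1 h1.symm
    rwa [inv_inv] at h2
  · show γ = γ * ((γ⁻¹ : Γ) : Γ ⧸ K).out * (((γ⁻¹ : Γ) : Γ ⧸ K).out)⁻¹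
    rw [mul_assoc, mul_inv_cancel, mul_one]

variable [K.FiniteIndex]

instance : Fintype (Γ ⧸ K) := Subgroup.fintypeQuotientOfFiniteIndex

/-- the index set of the sheets of the cover -/
def idx (N : ℕ) : Fin (Fintype.card (Fin N × (Γ ⧸ K))) ≃ Fin N × (Γ ⧸ K) :=
  (Fintype.equivFin _).symm

end coset

/-! ### The cover of a manifold -/

section sheets
variable (S : Sheets d E Γ) (K : Subgroup Γ) [K.FiniteIndex]

theorem smul_rep_eq {i j : Fin S.N} {z w : Cm d} {c c' : Γ ⧸ K} {κ : Γ}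
    (h : rep K c • S.σ i z = κ • rep K c' • S.σ j w) :
    S.σ i z = ((rep K c)⁻¹ * κ * rep K c') • S.σ j w := by
  rw [mul_smul, mul_smul, ← h, inv_smul_smul]

variable [ContinuousConstSMul Γ E]

/-- **The finite étale cover `E / K` of `E / Γ`** -/
def sub : Sheets d E K where
  N := Fintype.card (Fin S.N × (Γ ⧸ K))
  σ i z := rep K (idx K S.N i).2 • S.σ (idx K S.N i).1 z
  map_nhds i z hz := Sh.map_nhds_smul S _ _ hz
  inj i z hz w hw κ h := by
    have h1 : ((rep K (idx K S.N i).2)⁻¹ * (κ : Γ) * rep K (idx K S.N i).2) •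
        S.σ (idx K S.N i).1 z = S.σ (idx K S.N i).1 w := by
      rw [mul_smul, mul_smul]
      have h2 : (κ : Γ) • rep K (idx K S.N i).2 • S.σ (idx K S.N i).1 z =
        rep K (idx K S.N i).2 • S.σ (idx K S.N i).1 w := h
      rw [h2, inv_smul_smul]
    obtain ⟨h3, h4⟩ := S.inj _ z hz w hw _ h1
    refine ⟨?_, h4⟩
    have h5 : (κ : Γ) = rep K (idx K S.N i).2 *
        ((rep K (idx K S.N i).2)⁻¹ * (κ : Γ) * rep K (idx K S.N i).2) *
          (rep K (idx K S.N i).2)⁻¹ := by group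
    rw [h3] at h5
    apply Subtype.ext
    rw [h5]
    simp
  cover e := by
    obtain ⟨γ, i, z, hz, he⟩ := S.cover e
    obtain ⟨κ, c, hγ⟩ := exists_rep K γ
    refine ⟨κ, (idx K S.N).symm (i, c), z, hz, ?_⟩
    rw [Equiv.apply_symm_apply]
    show (κ : Γ) • rep K c • S.σ i z = e
    rw [← mul_smul, ← hγ, he]
  closed i r hr := by
    set g := rep K (idx K S.N i).2 with hg
    set j := (idx K S.N i).1 with hj
    rw [← isOpen_compl_iff, isOpen_iff_mem_nhds]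
    intro e he
    by_cases h1 : ∃ (γ : Γ) (z : Cm d), ‖z‖ ≤ r ∧ γ • S.σ j z = e
    · obtain ⟨γ, z, hz, rfl⟩ := h1
      have hz3 : z ∈ ball (0 : Cm d) 3 := Sh.mem3' hr hz
      have h2 : (fun u => γ • S.σ j u) '' ball 0 3 ∈ 𝓝 (γ • S.σ j z) :=
        (Sh.isOpen_image_smul S γ j isOpen_ball Subset.rfl).mem_nhds ⟨z, hz3, rfl⟩
      filter_upwards [h2] with e' he' hcon
      obtain ⟨w, hw, rfl⟩ := he'
      obtain ⟨κ, u, hu, hκ⟩ := hcon
      have hκ' : (κ : Γ) • g • S.σ j u = γ • S.σ j w := hκ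
      have hu3 : u ∈ ball (0 : Cm d) 3 := Sh.mem3' hr hu
      have h3 : (γ⁻¹ * (κ : Γ) * g) • S.σ j u = S.σ j w := by
        rw [mul_smul, mul_smul, hκ', inv_smul_smul]
      obtain ⟨h4, -⟩ := S.inj j u hu3 w hw _ h3
      have h5 : γ = κ * g := by
        have h6 : γ⁻¹ * ((κ : Γ) * g) = 1 := by rw [← mul_assoc]; exact h4
        rw [inv_mul_eq_one] at h6
        exact h6
      refine he ⟨κ, z, hz, ?_⟩
      show (κ : Γ) • g • S.σ j z = _
      rw [← mul_smul, ← h5]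
    · have h2 := (S.closed j r hr).isOpen_compl.mem_nhds h1
      filter_upwards [h2] with e' he' hcon
      obtain ⟨κ, u, hu, hκ⟩ := hcon
      refine he' ⟨κ * g, u, hu, ?_⟩
      rw [mul_smul]
      exact hκ
  hol i j z hz w hw κ h := by
    have h1 := smul_rep_eq S K (κ := (κ : Γ)) h
    obtain ⟨θ, h2, h3, h4⟩ := S.hol _ _ z hz w hw _ h1
    refine ⟨θ, h2, h3, ?_⟩
    filter_upwards [h4] with u hu
    show rep K _ • S.σ _ u = (κ : Γ) • rep K _ • S.σ _ (θ u)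
    rw [hu, mul_smul, mul_smul, smul_inv_smul]

theorem sub_sigma (i : Fin (sub S K).N) (z : Cm d) :
    (sub S K).σ i z = rep K (idx K S.N i).2 • S.σ (idx K S.N i).1 z := rfl

/-- the sheet number `(i, c)` -/
def six (i : Fin S.N) (c : Γ ⧸ K) : Fin (sub S K).N := (idx K S.N).symm (i, c)

theorem sub_sigma' (i : Fin S.N) (c : Γ ⧸ K) (z : Cm d) :
    (sub S K).σ (six S K i c) z = rep K c • S.σ i z := by
  show rep K (idx K S.N ((idx K S.N).symm (i, c))).2 •
    S.σ (idx K S.N ((idx K S.N).symm (i, c))).1 z = _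
  rw [Equiv.apply_symm_apply]

/-- functions which are additive for `K` are holomorphic on all the translates of the sheets -/
theorem add_sub_iff {h : E → ℂ} {b : K → ℂ} : Add (sub S K) h b ↔
    (∀ (γ : Γ) i, DifferentiableOn ℂ (fun z => h (γ • S.σ i z)) (ball 0 3)) ∧
      ∀ (κ : K) e, h ((κ : Γ) • e) = h e + b κ := by
  constructor
  · intro H
    refine ⟨fun γ i => ?_, fun κ e => H.add κ e⟩
    obtain ⟨κ, c, rfl⟩ := exists_rep K γ
    have h1 := H.hol (six S K i c)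
    simp only [sub_sigma'] at h1
    have h2 : (fun z => h (((κ : Γ) * rep K c) • S.σ i z)) =
        fun z => h (rep K c • S.σ i z) + b κ := by
      funext z
      rw [mul_smul]
      exact H.add κ _
    rw [h2]
    exact h1.add_const _
  · rintro ⟨h1, h2⟩
    exact ⟨fun i => h1 _ _, fun κ e => h2 κ e⟩

/-- functions which are additive for `Γ` -/
theorem add_sub {h : E → ℂ} {b : Γ → ℂ} (H : Add S h b) : Add (sub S K) h fun κ => b κ :=
  (add_sub_iff S K).2 ⟨fun γ i => fun _ hz =>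
    (add_analyticAt_smul H γ i hz).differentiableAt.differentiableWithinAt, fun κ e => H.add κ e⟩

/-- translates of additive functions -/
theorem add_translate [K.Normal] {h : E → ℂ} {b : K → ℂ} (H : Add (sub S K) h b) (γ : Γ) :
    Add (sub S K) (fun e => h (γ • e)) fun κ => b ⟨γ * κ * γ⁻¹, ‹K.Normal›.conj_mem κ κ.2 γ⟩ := by
  obtain ⟨h1, h2⟩ := (add_sub_iff S K).1 H
  refine (add_sub_iff S K).2 ⟨fun γ' i => ?_, fun κ e => ?_⟩
  · have h3 := h1 (γ * γ') i
    simp only [mul_smul] at h3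
    exact h3
  · have h3 := h2 ⟨γ * κ * γ⁻¹, ‹K.Normal›.conj_mem κ κ.2 γ⟩ (γ • e)
    rw [← h3]
    congr 1
    show γ • (κ : Γ) • e = (γ * (κ : Γ) * γ⁻¹) • γ • e
    rw [mul_smul, mul_smul, inv_smul_smul]

/-- the metric of the cover -/
theorem kah_sub {w : Fin S.N → Cm d → Matrix (Fin d) (Fin d) ℂ} (H : Kah S w) :
    Kah (sub S K) fun i => w (idx K S.N i).1 where
  smooth i j k := H.smooth _ j k
  posDef i z hz := H.posDef _ z hz
  closed i z hz j k l := H.closed _ z hz j k l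
  change i j z hz z' hz' κ θ hθ hθz hev := by
    refine H.change _ _ z hz z' hz'
      ((rep K (idx K S.N i).2)⁻¹ * (κ : Γ) * rep K (idx K S.N j).2) θ hθ hθz ?_
    filter_upwards [hev] with u hu
    exact smul_rep_eq S K (κ := (κ : Γ)) hu

/-- Gauss maps -/
theorem minor_sub {H : E → Cm d} (i : Fin (sub S K).N) (z : Cm d) :
    (sub S K).minor H i z =
      S.minor (fun e => H (rep K (idx K S.N i).2 • e)) (idx K S.N i).1 z := rfl

end sheets

/-! ### The cover of a family -/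

section fam
variable (𝓕 : Fam p d E Γ) (K : Subgroup Γ) [K.FiniteIndex] [ContinuousConstSMul Γ E]

theorem fam_map_nhds_smul (γ : Γ) (i : Fin 𝓕.N) {t : Cm p} (ht : t ∈ 𝓕.T) {z : Cm d}
    (hz : z ∈ ball (0 : Cm d) 3) :
    Filter.map (fun q : Cm p × Cm d => (q.1, γ • 𝓕.σ i q.1 q.2)) (𝓝 (t, z)) =
      𝓝 (t, γ • 𝓕.σ i t z) := by
  have h1 : (fun q : Cm p × Cm d => (q.1, γ • 𝓕.σ i q.1 q.2)) =
      (Homeomorph.prodCongr (Homeomorph.refl (Cm p)) (Homeomorph.smul γ)) ∘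
        fun q : Cm p × Cm d => (q.1, 𝓕.σ i q.1 q.2) := rfl
  rw [h1, ← Filter.map_map, 𝓕.map_nhds i t ht z hz]
  exact (Homeomorph.prodCongr (Homeomorph.refl (Cm p)) (Homeomorph.smul γ)).map_nhds_eq _

theorem fam_smul_rep_eq {i j : Fin 𝓕.N} {t s : Cm p} {z w : Cm d} {c c' : Γ ⧸ K} {κ : Γ}
    (h : rep K c • 𝓕.σ i t z = κ • rep K c' • 𝓕.σ j s w) :
    𝓕.σ i t z = ((rep K c)⁻¹ * κ * rep K c') • 𝓕.σ j s w := by
  rw [mul_smul, mul_smul, ← h, inv_smul_smul]

/-- **The finite étale cover of a family** -/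
def fsub : Fam p d E K where
  T := 𝓕.T
  isOpen := 𝓕.isOpen
  conn := 𝓕.conn
  N := Fintype.card (Fin 𝓕.N × (Γ ⧸ K))
  σ i t z := rep K (idx K 𝓕.N i).2 • 𝓕.σ (idx K 𝓕.N i).1 t z
  map_nhds i t ht z hz := fam_map_nhds_smul 𝓕 _ _ ht hz
  map_nhds' i t ht z hz := (sub (𝓕.at t ht) K).map_nhds i z hz
  inj i t ht z hz w hw κ h := (sub (𝓕.at t ht) K).inj i z hz w hw κ h
  cover t ht e := (sub (𝓕.at t ht) K).cover e
  closed i t ht r hr := (sub (𝓕.at t ht) K).closed i r hr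
  closed' i r hr t ht e he := by
    set g := rep K (idx K 𝓕.N i).2 with hg
    set j := (idx K 𝓕.N i).1 with hj
    have hT : ∀ᶠ q : Cm p × E in 𝓝 (t, e), q.1 ∈ 𝓕.T :=
      (continuous_fst.tendsto (t, e)).eventually (𝓕.isOpen.mem_nhds ht)
    by_cases h1 : ∃ (γ : Γ) (z : Cm d), ‖z‖ ≤ r ∧ γ • 𝓕.σ j t z = e
    · obtain ⟨γ, z, hz, rfl⟩ := h1
      have hz3 : z ∈ ball (0 : Cm d) 3 := Sh.mem3' hr hz
      have h2 : ∀ᶠ q : Cm p × E in 𝓝 (t, γ • 𝓕.σ j t z), ∃ w ∈ ball (0 : Cm d) 3,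
          q.2 = γ • 𝓕.σ j q.1 w := by
        rw [← fam_map_nhds_smul 𝓕 γ j ht hz3, eventually_map]
        have h3 : ∀ᶠ q : Cm p × Cm d in 𝓝 (t, z), q.2 ∈ ball (0 : Cm d) 3 :=
          (continuous_snd.tendsto (t, z)).eventually (isOpen_ball.mem_nhds hz3)
        filter_upwards [h3] with q hq
        exact ⟨q.2, hq, rfl⟩
      filter_upwards [h2, hT] with q hq hqT κ u hu hκ
      obtain ⟨w, hw, hqw⟩ := hq
      have hκ' : (κ : Γ) • g • 𝓕.σ j q.1 u = γ • 𝓕.σ j q.1 w := hκ.trans hqw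
      have hu3 : u ∈ ball (0 : Cm d) 3 := Sh.mem3' hr hu
      have h3 : (γ⁻¹ * (κ : Γ) * g) • 𝓕.σ j q.1 u = 𝓕.σ j q.1 w := by
        rw [mul_smul, mul_smul, hκ', inv_smul_smul]
      obtain ⟨h4, -⟩ := 𝓕.inj j q.1 hqT u hu3 w hw _ h3
      have h5 : γ = κ * g := by
        have h6 : γ⁻¹ * ((κ : Γ) * g) = 1 := by rw [← mul_assoc]; exact h4
        rw [inv_mul_eq_one] at h6
        exact h6
      refine he κ z hz ?_
      show (κ : Γ) • g • 𝓕.σ j t z = _
      rw [← mul_smul, ← h5]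
    · push Not at h1
      filter_upwards [𝓕.closed' j r hr t ht e h1] with q hq κ u hu hκ
      refine hq (κ * g) u hu ?_
      rw [mul_smul]
      exact hκ
  hol i j t ht z hz w hw κ h := by
    have h1 := fam_smul_rep_eq 𝓕 K (κ := (κ : Γ)) h
    obtain ⟨θ, h2, h3, h4⟩ := 𝓕.hol _ _ t ht z hz w hw _ h1
    refine ⟨θ, h2, h3, ?_⟩
    filter_upwards [h4] with q hq
    show rep K _ • 𝓕.σ _ q.1 q.2 = (κ : Γ) • rep K _ • 𝓕.σ _ q.1 (θ q)
    rw [hq, mul_smul, mul_smul, smul_inv_smul]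
  smooth i j t ht s hs z hz w hw κ h := by
    have h1 := fam_smul_rep_eq 𝓕 K (κ := (κ : Γ)) h
    obtain ⟨ψ, h2, h3, h4, h5⟩ := 𝓕.smooth _ _ t ht s hs z hz w hw _ h1
    refine ⟨ψ, h2, h3, h4, ?_⟩
    filter_upwards [h5] with u hu
    show rep K _ • 𝓕.σ _ t u = (κ : Γ) • rep K _ • 𝓕.σ _ s (ψ u)
    rw [hu, mul_smul, mul_smul, smul_inv_smul]

theorem fsub_at {t : Cm p} (ht : t ∈ 𝓕.T) : (fsub 𝓕 K).at t ht = sub (𝓕.at t ht) K := rfl

/-- the metric of the cover -/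
theorem kfam_sub {W : Fin 𝓕.N → Cm p × Cm d → Matrix (Fin p ⊕ Fin d) (Fin p ⊕ Fin d) ℂ}
    (H : KFam 𝓕 W) : KFam (fsub 𝓕 K) fun i => W (idx K 𝓕.N i).1 where
  smooth i t ht z hz a b := H.smooth _ t ht z hz a b
  posDef i t ht z hz := H.posDef _ t ht z hz
  closed i t ht z hz a b c := H.closed _ t ht z hz a b c
  change i j t ht z hz z' hz' κ θ hθ hθz hev := by
    refine H.change _ _ t ht z hz z' hz'
      ((rep K (idx K 𝓕.N i).2)⁻¹ * (κ : Γ) * rep K (idx K 𝓕.N j).2) θ hθ hθz ?_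
    filter_upwards [hev] with q hq
    exact fam_smul_rep_eq 𝓕 K (κ := (κ : Γ)) hq

end fam

/-! ### Characteristic subgroups of finite index -/

section core

/-- the intersection of the kernels of the homomorphisms to the symmetric group `𝔖_m` -/
def core (Γ : Type) [Group Γ] (m : ℕ) : Subgroup Γ := ⨅ φ : Γ →* Equiv.Perm (Fin m), φ.ker

instance core_normal (m : ℕ) : (core Γ m).Normal := by
  constructor
  intro a ha g
  rw [core, Subgroup.mem_iInf] at ha ⊢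
  exact fun φ => (inferInstance : (φ.ker).Normal).conj_mem a (ha φ) g

theorem core_finiteIndex [hΓ : Group.FG Γ] (m : ℕ) : (core Γ m).FiniteIndex := by
  obtain ⟨s, hs⟩ := hΓ.out
  have : Finite (Γ →* Equiv.Perm (Fin m)) := by
    refine Finite.of_injective (fun (φ : Γ →* Equiv.Perm (Fin m)) (x : s) => φ x) ?_
    intro φ ψ h
    refine MonoidHom.eq_of_eqOn_dense (s := (s : Set Γ)) hs fun x hx => ?_
    exact congrFun h ⟨x, hx⟩
  exact Subgroup.finiteIndex_iInf fun φ => inferInstance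

theorem map_core {Γ Γ' : Type} [Group Γ] [Group Γ'] (ρ : Γ ≃* Γ') (m : ℕ) {γ : Γ} :
    ρ γ ∈ core Γ' m ↔ γ ∈ core Γ m := by
  rw [core, core, Subgroup.mem_iInf, Subgroup.mem_iInf]
  constructor
  · intro h φ
    have h1 := h (φ.comp ρ.symm.toMonoidHom)
    rw [MonoidHom.mem_ker] at h1 ⊢
    simpa using h1
  · intro h φ
    have h1 := h (φ.comp ρ.toMonoidHom)
    rw [MonoidHom.mem_ker] at h1 ⊢
    simpa using h1

/-- `core` and actions on sets with at most `m` elements -/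
theorem core_le_ker {Γ A : Type} [Group Γ] [Finite A] {m : ℕ} (hm : Nat.card A ≤ m)
    (φ : Γ →* Equiv.Perm A) : core Γ m ≤ φ.ker := by
  classical
  have := Fintype.ofFinite A
  have h1 : Nonempty (A ↪ Fin m) := by
    refine Function.Embedding.nonempty_of_card_le ?_
    rw [Fintype.card_fin, ← Nat.card_eq_fintype_card]
    exact hm
  obtain ⟨e⟩ := h1
  intro γ hγ
  rw [core, Subgroup.mem_iInf] at hγ
  have h2 := hγ ((Equiv.Perm.viaEmbeddingHom e).comp φ)
  rw [MonoidHom.mem_ker] at h2 ⊢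
  have h3 : Equiv.Perm.viaEmbeddingHom e (φ γ) = Equiv.Perm.viaEmbeddingHom e 1 := by
    rw [map_one]
    exact h2
  exact Equiv.Perm.viaEmbeddingHom_injective e h3

end core

end Vale.Agent.P281.H603.TE
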